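import Crest.Agent.X212.Tw9.Defs
import Crest.Agent.X212.Lad50.PL

/-!
# X212 / T layer, tower (helper9): constructors of charts, elementary moves in a triangulation
-/

set_option autoImplicit false

open Set Metric Topology Filter

namespace Crest.Agent.X212.Tw9

open Crest.Agent.R096.Ce_537
open Crest.Agent.X212.Prd34 (V P up fl Mf)
open Crest.Agent.X212.Dsc4
open Crest.Agent.X212.Lad50

section ch

variable {E : Type} [NormedAddCommGroup E] [NormedSpace ℝ E]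

theorem ch_of_local {W dW : Set E} {y : E} {δ ε : ℝ} (e : E → V) (g : V → E) (hy : y ∈ W)
    (hδ : 0 < δ) (hε : 0 < ε) (pe : PLOn e (W ∩ ball y δ)) (pg : PLOn g (up ∩ ball (e y) ε))
    (me : MapsTo e (W ∩ ball y δ) up) (mg : MapsTo g (up ∩ ball (e y) ε) W)
    (li : ∀ q ∈ W ∩ ball y δ, g (e q) = q)
    (ri : ∀ x ∈ up ∩ ball (e y) ε, g x ∈ ball y δ → e (g x) = x)
    (bd : ∀ q ∈ W ∩ ball y δ, q ∈ dW ↔ e q 2 = 0) :
    ∃ k : Ch W dW, y ∈ k.O ∧ k.O ⊆ ball y δ := by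
  have hy' : y ∈ W ∩ ball y δ := ⟨hy, mem_ball_self hδ⟩
  have h0 : e y ∈ up ∩ ball (e y) ε := ⟨me hy', mem_ball_self hε⟩
  have h1 : g ⁻¹' ball y δ ∈ 𝓝[up ∩ ball (e y) ε] (e y) := by
    apply pg.1 _ h0
    rw [li y hy']
    exact ball_mem_nhds y hδ
  obtain ⟨ε', hε', h2⟩ := Metric.mem_nhdsWithin_iff.1 h1
  set ρ := min ε ε' with hρ
  have sub : up ∩ ball (e y) ρ ⊆ up ∩ ball (e y) ε :=
    inter_subset_inter_right _ (ball_subset_ball (min_le_left _ _))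
  have gb : ∀ x ∈ up ∩ ball (e y) ρ, g x ∈ ball y δ := fun x hx =>
    h2 ⟨ball_subset_ball (min_le_right _ _) hx.2, sub hx⟩
  obtain ⟨U, hU, hU'⟩ := continuousOn_iff'.1 pe.1 (ball (e y) ρ) isOpen_ball
  refine ⟨⟨e ⁻¹' ball (e y) ρ ∩ (W ∩ ball y δ), up ∩ ball (e y) ρ,
    ⟨e, g, pe.mono inter_subset_right, pg.mono sub, fun q hq => ⟨me hq.2, hq.1⟩,
      fun x hx => ⟨?_, mg (sub hx), gb x hx⟩, fun q hq => li q hq.2,
      fun x hx => ri x (sub hx) (gb x hx)⟩,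
    ⟨U ∩ ball y δ, hU.inter isOpen_ball, ?_⟩, ⟨_, isOpen_ball, inter_comm _ _⟩,
    fun q hq => bd q hq.2⟩, ⟨mem_ball_self (lt_min hε hε'), hy'⟩, fun q hq => hq.2.2⟩
  · rw [mem_preimage, ri x (sub hx) (gb x hx)]; exact hx.2
  · rw [hU']; ext q; simp only [mem_inter_iff]; tauto

/-- transfer of a chart along a local PL isomorphism of pairs -/
theorem ch_transfer {F : Type} [NormedAddCommGroup F] [NormedSpace ℝ F] {W dW A : Set E}
    {W' dW' A' : Set F} (hA : ROpen W A) (hA' : ROpen W' A') (φ : PLEquiv A A')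
    (hb : ∀ x ∈ A, x ∈ dW ↔ φ.f x ∈ dW') (k : Ch W' dW') {x : E} (hx : x ∈ A)
    (hk : φ.f x ∈ k.O) : ∃ k' : Ch W dW, x ∈ k'.O ∧ k'.O ⊆ A := by
  obtain ⟨B, hB, eB⟩ := hA
  obtain ⟨B', hB', eB'⟩ := hA'
  obtain ⟨O, hO, eO⟩ := k.opn
  obtain ⟨O', hO', eO'⟩ := k.opn'
  obtain ⟨U, hU, hU'⟩ := continuousOn_iff'.1 φ.pf.1 O hO
  obtain ⟨U', hU2, hU2'⟩ := continuousOn_iff'.1 k.e.pg.1 B' hB'
  have iA : ∀ z ∈ A', z ∈ B' ∩ W' := fun z hz => eB'.subset hz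
  have iO : ∀ z ∈ k.O, z ∈ O ∩ W' := fun z hz => eO.subset hz
  have m1 : ∀ q ∈ φ.f ⁻¹' O ∩ A, φ.f q ∈ k.O := fun q hq =>
    eO.symm.subset ⟨hq.1, (iA _ (φ.mf hq.2)).2⟩
  have m2 : ∀ z ∈ k.e.g ⁻¹' B' ∩ k.O', k.e.g z ∈ A' := fun z hz =>
    eB'.symm.subset ⟨hz.1, (iO _ (k.e.mg hz.2)).2⟩
  refine ⟨⟨φ.f ⁻¹' O ∩ A, k.e.g ⁻¹' B' ∩ k.O',
    ⟨fun q => k.e.f (φ.f q), fun z => φ.g (k.e.g z),
      k.e.pf.comp (φ.pf.mono inter_subset_right) m1,
      φ.pg.comp (k.e.pg.mono inter_subset_right) m2,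
      fun q hq => ⟨?_, k.e.mf (m1 q hq)⟩, fun z hz => ⟨?_, φ.mg (m2 z hz)⟩,
      fun q hq => ?_, fun z hz => ?_⟩,
    ⟨U ∩ B, hU.inter hB, ?_⟩, ⟨U' ∩ O', hU2.inter hO', ?_⟩, fun q hq => ?_⟩,
    ⟨(iO _ hk).1, hx⟩, inter_subset_right⟩
  · rw [mem_preimage, k.e.li _ (m1 q hq)]; exact (iA _ (φ.mf hq.2)).1
  · rw [mem_preimage, φ.ri _ (m2 z hz)]; exact (iO _ (k.e.mg hz.2)).1
  · show φ.g (k.e.g (k.e.f (φ.f q))) = q
    rw [k.e.li _ (m1 q hq), φ.li _ hq.2]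
  · show k.e.f (φ.f (φ.g (k.e.g z))) = z
    rw [φ.ri _ (m2 z hz), k.e.ri _ hz.2]
  · rw [hU', eB, inter_assoc]
  · rw [hU2', eO', inter_assoc]
  · rw [hb q hq.2]; exact k.bd _ (m1 q hq)

end ch

theorem mf_ch {M dM : Set V} (h : Mf M dM) {y : V} (hy : y ∈ M) : ∃ k : Ch M dM, y ∈ k.O := by
  by_cases hd : y ∈ dM
  · obtain ⟨B, e, e0, hB, hM, hdM⟩ := h.2.2 y hd
    obtain ⟨δ, hδ, hδB⟩ := Metric.mem_nhds_iff.1 hB
    have g0 : e.g y = 0 := by rw [← e0, e.li 0 (by simp [cube])]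
    have sb : up ∩ ball (e.g y) 1 ⊆ cube 3 ∩ up := by
      rw [g0]; exact fun x hx => ⟨ball_subset_closedBall hx.2, hx.1⟩
    refine (ch_of_local (W := M) (dW := dM) (δ := δ) (ε := 1) e.g e.f hy hδ one_pos
      (e.pg.mono fun q hq => hδB hq.2) (e.pf.mono fun x hx => (sb hx).1) ?_ ?_
      (fun q hq => e.ri q (hδB hq.2)) (fun x hx _ => e.li x (sb hx).1) ?_).imp fun k hk => hk.1
    · intro q hq
      obtain ⟨x, hx, rfl⟩ : q ∈ e.f '' (cube 3 ∩ up) := hM ▸ ⟨hδB hq.2, hq.1⟩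
      rw [e.li x hx.1]; exact hx.2
    · intro x hx
      exact ((hM ▸ mem_image_of_mem _ (sb hx) : e.f x ∈ B ∩ M)).2
    · intro q hq
      constructor
      · intro h1
        obtain ⟨x, hx, rfl⟩ : q ∈ e.f '' (cube 3 ∩ fl) := hdM ▸ ⟨hδB hq.2, h1⟩
        rw [e.li x hx.1]; exact hx.2
      · intro h1
        have h2 : e.f (e.g q) ∈ B ∩ dM := hdM ▸ mem_image_of_mem _ ⟨e.mg (hδB hq.2), h1⟩
        rw [e.ri q (hδB hq.2)] at h2
        exact h2.2
  · obtain ⟨δ, hδ, hδB⟩ := Metric.isOpen_iff.1 h.2.1 y ⟨hy, hd⟩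
    have pos : ∀ q ∈ ball y δ, 0 < (q - y + (fun _ => δ) : V) 2 := by
      intro q hq
      have h1 := (norm_le_pi_norm (q - y) 2).trans_lt (mem_ball_iff_norm.1 hq)
      have h2 := (abs_lt.1 h1).1
      show 0 < (q - y) 2 + δ
      linarith
    refine (ch_of_local (W := M) (dW := dM) (δ := δ) (ε := δ)
      (fun q => q - y + fun _ => δ) (fun x => x - (fun _ => δ) + y) hy hδ hδ
      (pl_add (pl_sub (plOn_id _) (plOn_const _ _)) (plOn_const _ _))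
      (pl_add (pl_sub (plOn_id _) (plOn_const _ _)) (plOn_const _ _))
      (fun q hq => (pos q hq.2).le) ?_ (fun q _ => by simp) (fun q _ _ => by simp) ?_).imp
      fun k hk => hk.1
    · intro x hx
      refine (hδB ?_).1
      have := hx.2
      simp only [sub_self, zero_add, mem_ball_iff_norm] at this
      rw [mem_ball_iff_norm, add_sub_cancel_right]
      exact this
    · intro q hq
      exact ⟨fun h1 => absurd h1 (hδB hq.2).2, fun h1 => absurd h1 (pos q hq.2).ne'⟩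

theorem mfE_of_mf {M dM : Set V} (h : Mf M dM) : MfE M dM := ⟨h.1, fun _ hy => mf_ch h hy⟩

namespace Tri

variable {E : Type} [NormedAddCommGroup E] [NormedSpace ℝ E] {ι : Type} [Fintype ι] {X : Set E}
  (T : Tri ι X)

theorem pt_of {y : E} (hy : y ∈ X) (w : ι → ℝ) (h0 : ∀ u, 0 ≤ w u) (h1 : ∑ u, w u = 1)
    (hs : ∀ u, T.be u y = 0 → w u = 0) {q : E} (hq : ∑ u, w u • T.pt u = q) :
    q ∈ X ∧ ∀ u, T.be u q = w u := hq ▸ T.face y hy w h0 h1 hs

theorem cont (u : ι) : ContinuousOn (T.be u) X := (T.pl u).1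

theorem le_one {y : E} (hy : y ∈ X) (u : ι) : T.be u y ≤ 1 := by
  rw [← T.sum y hy]
  exact Finset.single_le_sum (f := fun u => T.be u y) (fun u _ => T.nn y hy u) (Finset.mem_univ u)

/-- affine combinations inside one simplex -/
theorem line {y q : E} (hy : y ∈ X) (hq : q ∈ X) (hs : ∀ u, T.be u q = 0 → T.be u y = 0) {s : ℝ}
    (h0 : ∀ u, 0 ≤ T.be u y + s * (T.be u q - T.be u y)) :
    y + s • (q - y) ∈ X ∧ ∀ u, T.be u (y + s • (q - y)) = T.be u y + s * (T.be u q - T.be u y) := by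
  refine T.pt_of hq _ h0 ?_ (fun u hu => by rw [hu, hs u hu]; ring) ?_
  · rw [Finset.sum_add_distrib, ← Finset.mul_sum, Finset.sum_sub_distrib, T.sum y hy, T.sum q hq]
    ring
  · simp only [add_smul, mul_smul, sub_smul]
    rw [Finset.sum_add_distrib, ← Finset.smul_sum, Finset.sum_sub_distrib, T.rep y hy, T.rep q hq]

open Classical in
/-- translation along an edge -/
theorem shear {y : E} (hy : y ∈ X) (u v : ι) {t : ℝ} (hu : |t| < T.be u y) (hv : |t| < T.be v y) :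
    y + t • (T.pt v - T.pt u) ∈ X ∧ ∀ w, T.be w (y + t • (T.pt v - T.pt u)) =
      T.be w y + t * ((if w = v then 1 else 0) - (if w = u then 1 else 0)) := by
  have a1 := abs_lt.1 hu
  have a2 := abs_lt.1 hv
  refine T.pt_of hy _ (fun w => ?_) ?_ (fun w hw => ?_) ?_
  · have := T.nn y hy w
    split_ifs with h1 h2 h2
    · linarith
    · subst h1; linarith
    · subst h2; linarith
    · linarith
  · rw [Finset.sum_add_distrib, ← Finset.mul_sum, Finset.sum_sub_distrib, T.sum y hy]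
    simp
  · have b1 : w ≠ v := fun e => by subst e; linarith [abs_nonneg t]
    have b2 : w ≠ u := fun e => by subst e; linarith [abs_nonneg t]
    simp [hw, b1, b2]
  · simp only [add_smul, mul_smul, sub_smul]
    rw [Finset.sum_add_distrib, ← Finset.smul_sum, Finset.sum_sub_distrib, T.rep y hy]
    simp [ite_smul]

open Classical in
/-- a vertex of a simplex -/
theorem vert {y : E} (hy : y ∈ X) {u : ι} (hu : 0 < T.be u y) :
    T.pt u ∈ X ∧ ∀ w, T.be w (T.pt u) = if w = u then 1 else 0 := by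
  refine T.pt_of hy _ (fun w => by split_ifs <;> norm_num) (by simp) (fun w hw => ?_)
    (by simp [ite_smul])
  rw [if_neg]; rintro rfl; exact hu.ne' hw

end Tri

end Crest.Agent.X212.Tw9
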