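import Crest.Agent.X212.Tw9.Ch
import Crest.Agent.X212.Geo46.Defs
import Crest.Agent.X212.Lev33.Nice

/-!
# X212 / T layer (helper9): connectedness and `H¹` of a full subcomplex (`Geo46.H1Stmt`)
-/

set_option autoImplicit false

open Set Metric Topology Filter

namespace Crest.Agent.X212.Tw9

open Crest.Agent.R096.Ce_537
open Crest.Agent.X212.Lev33 (Coc Prim LCo)
open Crest.Agent.X212.Geo46 (supp simp cell H1Stmt)

variable {E : Type} [NormedAddCommGroup E] [NormedSpace ℝ E] {ι : Type} [Fintype ι] {X : Set E}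
  {T : Tri ι X}

theorem mem_supp' {y : E} {u : ι} : u ∈ supp T y ↔ 0 < T.be u y := by simp [supp]

theorem Tri.comb' (T : Tri ι X) {y q : E} (hy : y ∈ X) (hq : q ∈ X)
    (hs : ∀ u, T.be u y = 0 → T.be u q = 0) {a b : ℝ} (ha : 0 ≤ a) (hb : 0 ≤ b) (hab : a + b = 1) :
    a • q + b • y ∈ X ∧ ∀ u, T.be u (a • q + b • y) = a * T.be u q + b * T.be u y := by
  refine T.pt_of hy _ (fun u => add_nonneg (mul_nonneg ha (T.nn q hq u)) (mul_nonneg hb (T.nn y hy u)))
    ?_ (fun u hu => by rw [hu, hs u hu]; ring) ?_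
  · rw [Finset.sum_add_distrib, ← Finset.mul_sum, ← Finset.mul_sum, T.sum y hy, T.sum q hq]
    linarith
  · simp only [add_smul, mul_smul]
    rw [Finset.sum_add_distrib, ← Finset.smul_sum, ← Finset.smul_sum, T.rep y hy, T.rep q hq]

theorem Tri.bary' (T : Tri ι X) {u v w : ι} {y : E} (hy : y ∈ X) (hu : 0 < T.be u y)
    (hv : 0 < T.be v y) (hw : 0 < T.be w y) : ∃ q ∈ X,
    (∀ x, T.be x q ≠ 0 → x = u ∨ x = v ∨ x = w) ∧ 0 < T.be u q ∧ 0 < T.be v q ∧ 0 < T.be w q := by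
  classical
  let c : ι → ℝ := fun x => (1 / 3) * ((if x = u then 1 else 0) + (if x = v then 1 else 0) +
    (if x = w then 1 else 0))
  obtain ⟨h1, h2⟩ := T.face y hy c (fun x => by simp only [c]; split_ifs <;> norm_num)
    (by simp only [c]; rw [← Finset.mul_sum, Finset.sum_add_distrib, Finset.sum_add_distrib]
        simp; norm_num)
    (fun x hx => by
      have b1 : x ≠ u := fun e => by subst e; linarith
      have b2 : x ≠ v := fun e => by subst e; linarith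
      have b3 : x ≠ w := fun e => by subst e; linarith
      simp [c, b1, b2, b3])
  refine ⟨_, h1, fun x hx => ?_, ?_, ?_, ?_⟩
  · rw [h2] at hx
    by_contra hc
    push Not at hc
    simp [c, hc.1, hc.2.1, hc.2.2] at hx
  all_goals rw [h2]; simp only [c]; split_ifs <;> first | contradiction | norm_num

/-- intersection of three open stars of the full subcomplex -/
def St3 (T : Tri ι X) (A : Set ι) (u v w : ι) : Set E :=
  {y | y ∈ cell T A ∧ 0 < T.be u y ∧ 0 < T.be v y ∧ 0 < T.be w y}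

theorem st3_star {A : Set ι} {u v w : ι} (hu : u ∈ A) (hv : v ∈ A) (hw : w ∈ A) {y : E}
    (hy : y ∈ X) (h1 : 0 < T.be u y) (h2 : 0 < T.be v y) (h3 : 0 < T.be w y) :
    ∃ m ∈ St3 T A u v w, StarConvex ℝ m (St3 T A u v w) := by
  obtain ⟨q, hq, q0, q1, q2, q3⟩ := T.bary' hy h1 h2 h3
  refine ⟨q, ⟨⟨hq, fun x hx => ?_⟩, q1, q2, q3⟩, fun p hp a b ha hb hab => ?_⟩
  · rcases q0 x (mem_supp'.1 hx).ne' with rfl | rfl | rfl <;> assumption
  have hs : ∀ x, T.be x p = 0 → T.be x q = 0 := fun x hx => by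
    by_contra hc
    rcases q0 x hc with rfl | rfl | rfl <;> linarith [hp.2.1, hp.2.2.1, hp.2.2.2]
  obtain ⟨c1, c2⟩ := T.comb' hp.1.1 hq hs ha hb hab
  have pos : ∀ x z : ℝ, 0 < x → 0 < z → 0 < a * x + b * z := fun x z hx hz => by
    rcases ha.eq_or_lt with h0 | h0
    · rw [← h0] at hab ⊢
      rw [zero_add] at hab
      rw [hab]; simpa using hz
    · positivity
  refine ⟨⟨c1, fun x hx => hp.1.2 x (mem_supp'.2 ?_)⟩, c2 _ ▸ pos _ _ q1 hp.2.1,
    c2 _ ▸ pos _ _ q2 hp.2.2.1, c2 _ ▸ pos _ _ q3 hp.2.2.2⟩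
  refine lt_of_le_of_ne (T.nn p hp.1.1 x) fun e => ?_
  have := mem_supp'.1 hx
  rw [c2, ← e, hs x e.symm] at this
  simp at this

theorem st3_self {A : Set ι} {u v w : ι} {y : E} (h : y ∈ St3 T A u v w) :
    ∃ m ∈ St3 T A u v w, StarConvex ℝ m (St3 T A u v w) :=
  st3_star (h.1.2 u (mem_supp'.2 h.2.1)) (h.1.2 v (mem_supp'.2 h.2.2.1))
    (h.1.2 w (mem_supp'.2 h.2.2.2)) h.1.1 h.2.1 h.2.2.1 h.2.2.2

theorem st3_conn (A : Set ι) (u v w : ι) : IsPreconnected (St3 T A u v w) := by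
  rcases (St3 T A u v w).eq_empty_or_nonempty with h | ⟨y, hy⟩
  · rw [h]; exact isPreconnected_empty
  · obtain ⟨m, hm, hs⟩ := st3_self hy
    exact (hs.isPathConnected hm).isConnected.isPreconnected

theorem st3_nhds {A : Set ι} {u : ι} {y : E} (hy : y ∈ cell T A) (hu : 0 < T.be u y) :
    St3 T A u u u ∈ 𝓝[cell T A] y := by
  have h1 : ∀ᶠ z in 𝓝[cell T A] y, 0 < T.be u z :=
    ((T.cont u y hy.1).mono fun z (hz : z ∈ cell T A) => hz.1).eventually_const_lt hu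
  filter_upwards [h1, self_mem_nhdsWithin] with z a b using ⟨b, a, a, a⟩

theorem ex_pos' {y : E} (hy : y ∈ X) : ∃ u, 0 < T.be u y := by
  by_contra hc
  push Not at hc
  have : ∑ u, T.be u y ≤ 0 := Finset.sum_nonpos fun u _ => hc u
  linarith [T.sum y hy]

theorem supp_simp {y : E} (hy : y ∈ X) : supp T y ∈ simp T :=
  ⟨(ex_pos' (T := T) hy).imp fun _ h => mem_supp'.2 h, y, hy, subset_rfl⟩

theorem h1c_of_h1On {A : Set ι} (h : Dsc37.H1On (simp T) A) : H1c (cell T A) := by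
  classical
  intro d hd
  have h1 : ∀ v, ∃ b, Prim (St3 T A v v v) d b := fun v => by
    rcases (St3 T A v v v).eq_empty_or_nonempty with h | ⟨y, hy⟩
    · exact ⟨fun _ => 1, fun x hx => absurd (h ▸ hx) (notMem_empty x)⟩
    · obtain ⟨m, hm, hs⟩ := st3_self hy
      exact (hd.mono fun p hp => hp.1).prim_star hm hs
  choose b hb using h1
  have h2 : ∀ v w, ∃ o : ZMod 2, ∀ p ∈ St3 T A v w w,
      Multiplicative.toAdd (b w p) = o + Multiplicative.toAdd (b v p) := fun v w => by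
    rcases (St3 T A v w w).eq_empty_or_nonempty with h | ⟨m, hm⟩
    · exact ⟨0, fun x hx => absurd (h ▸ hx) (notMem_empty x)⟩
    · refine ⟨Multiplicative.toAdd (b w m * (b v m)⁻¹), fun p hp => ?_⟩
      rw [← toAdd_mul]
      exact congrArg _
        (((hb v).mono fun p (hp : p ∈ St3 T A v w w) => ⟨hp.1, hp.2.1, hp.2.1, hp.2.1⟩).uniq
        ((hb w).mono fun p (hp : p ∈ St3 T A v w w) => ⟨hp.1, hp.2.2.1, hp.2.2.1, hp.2.2.1⟩)
        (st3_conn A v w w) hm hp)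
  choose ω hω using h2
  obtain ⟨σ, hσ⟩ := h ω fun s hs u hu v hv w hw au av aw => by
    obtain ⟨-, y, hy, h3⟩ := hs
    obtain ⟨m, hm, -⟩ := st3_star au av aw hy (mem_supp'.1 (h3 hu)) (mem_supp'.1 (h3 hv))
      (mem_supp'.1 (h3 hw))
    have a1 := hω u v m ⟨hm.1, hm.2.1, hm.2.2.1, hm.2.2.1⟩
    have a2 := hω u w m ⟨hm.1, hm.2.1, hm.2.2.2, hm.2.2.2⟩
    have a3 := hω v w m ⟨hm.1, hm.2.2.1, hm.2.2.2, hm.2.2.2⟩
    linear_combination a1 + a3 - a2
  have h3 : ∀ p, ∃ g : Multiplicative (ZMod 2), p ∈ cell T A → ∀ v, 0 < T.be v p →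
      g = Multiplicative.ofAdd (σ v) * b v p := fun p => by
    by_cases hp : p ∈ cell T A
    · obtain ⟨v, hv⟩ := ex_pos' (T := T) hp.1
      refine ⟨Multiplicative.ofAdd (σ v) * b v p, fun _ w hw => ?_⟩
      have a1 := hω v w p ⟨hp, hv, hw, hw⟩
      have a2 := hσ _ (supp_simp hp.1) v (mem_supp'.2 hv) w (mem_supp'.2 hw)
        (hp.2 v (mem_supp'.2 hv)) (hp.2 w (mem_supp'.2 hw))
      apply Multiplicative.toAdd.injective
      rw [toAdd_mul, toAdd_mul, toAdd_ofAdd, toAdd_ofAdd, a1, a2, ← add_assoc, add_comm (σ v) (σ w),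
        ← add_assoc, CharTwo.add_self_eq_zero, zero_add]
    · exact ⟨1, fun a => absurd a hp⟩
  choose g hg using h3
  refine ⟨g, fun p hp => ?_⟩
  obtain ⟨v, hv⟩ := ex_pos' (T := T) hp.1
  have h4 := st3_nhds hp hv
  have h5 := (hb v p ⟨hp, hv, hv, hv⟩).filter_mono (nhdsWithin_le_of_mem h4)
  filter_upwards [h4, h5] with q a1 a2
  rw [hg q a1.1 v a1.2.1, hg p hp v hv, a2, mul_assoc]

theorem h1_of_h1c {Y : Type} [TopologicalSpace Y] {S : Set Y} (h : H1c S) : Srf12.H1 S := by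
  intro n C d hc
  obtain ⟨c, h1, h2⟩ := Lev33.coc_of_cech hc
  exact (h2 S subset_rfl).1 (h c h1)

open Classical in
theorem conn_cell {A : Set ι}
    (h : Dsc37.Conn (fun u v => {u, v} ∈ simp T) {u | u ∈ A ∧ {u} ∈ simp T}) :
    IsConnected (cell T A) := by
  have pt : ∀ u v, u ∈ A → v ∈ A → {u, v} ∈ simp T → (St3 T A u v v).Nonempty := by
    rintro u v hu hv ⟨-, y, hy, h3⟩
    have a1 := mem_supp'.1 (h3 (Finset.mem_insert_self u {v}))
    have a2 := mem_supp'.1 (h3 (Finset.mem_insert_of_mem (Finset.mem_singleton_self v)))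
    obtain ⟨m, hm, -⟩ := st3_star hu hv hv hy a1 a2 a2
    exact ⟨m, hm⟩
  obtain ⟨⟨u0, hu0⟩, h⟩ := h
  obtain ⟨x, hx⟩ := pt u0 u0 hu0.1 hu0.1 (by simpa using hu0.2)
  have key : ∀ u v, u ∈ A → v ∈ A → {u, v} ∈ simp T →
      St3 T A u u u ⊆ connectedComponentIn (cell T A) x →
      St3 T A v v v ⊆ connectedComponentIn (cell T A) x := fun u v hu hv e a => by
    obtain ⟨m, hm⟩ := pt u v hu hv e
    rw [connectedComponentIn_eq (a ⟨hm.1, hm.2.1, hm.2.1, hm.2.1⟩)]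
    exact (st3_conn A v v v).subset_connectedComponentIn ⟨hm.1, hm.2.2.1, hm.2.2.1, hm.2.2.1⟩
      fun p hp => hp.1
  have h2 := h (fun u => St3 T A u u u ⊆ connectedComponentIn (cell T A) x)
    fun u hu v hv e => ⟨key u v hu.1 hv.1 e, key v u hv.1 hu.1 (by rwa [Finset.pair_comm])⟩
  have h3 : cell T A = connectedComponentIn (cell T A) x := by
    refine Subset.antisymm (fun y hy => ?_) (connectedComponentIn_subset _ _)
    obtain ⟨v, hv⟩ := ex_pos' (T := T) hy.1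
    exact (h2 u0 hu0 v ⟨hy.2 v (mem_supp'.2 hv), Finset.singleton_nonempty v, y, hy.1,
      Finset.singleton_subset_iff.2 (mem_supp'.2 hv)⟩).1
      ((st3_conn A u0 u0 u0).subset_connectedComponentIn hx fun p hp => hp.1) ⟨hy, hv, hv, hv⟩
  rw [h3]
  exact isConnected_connectedComponentIn_iff.2 hx.1

/-- **(H1)** -/
theorem h1Stmt : H1Stmt := fun _ _ _ _ _ _ _ _ _ =>
  ⟨fun h => ⟨h1c_of_h1On h, h1_of_h1c (h1c_of_h1On h)⟩, fun h => conn_cell h⟩

end Crest.Agent.X212.Tw9
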