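import Crest.Agent.X212.Tw9.Defs
import Crest.Agent.X212.Lev33.Nice

/-!
# X212 / T layer (helper9): the universal cocycle, `LTc → LTStmt`
-/

set_option autoImplicit false

open Set Metric Topology Filter unitInterval CategoryTheory

namespace Crest.Agent.X212.Tw9

open Crest.Agent.R096.Ce_537
open Crest.Agent.X212.Prd34 (V P up fl Mf)
open Crest.Agent.X212.Lev33
open Crest.Agent.X212.Dsc4 (ROpen Ess)

/-- the universal path functional -/
theorem exists_pf {Y : Type} [TopologicalSpace Y] (x0 : Y) :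
    ∃ (Γ : Type) (_ : Group Γ) (φ : ∀ x y : Y, Path x y → Γ), PF univ φ ∧
      ∀ y (p q : Path x0 y), φ x0 y p = φ x0 y q → p.Homotopic q := by
  classical
  let a : Y → FundamentalGroupoid Y := FundamentalGroupoid.mk
  let m : ∀ {x y : Y}, Path x y → (a x ⟶ a y) := fun p => Path.Homotopic.Quotient.mk p
  have mt : ∀ {x y z : Y} (p : Path x y) (q : Path y z), m (p.trans q) = m p ≫ m q :=
    fun p q => rfl
  refine ⟨a x0 ⟶ a x0, inferInstance, fun x y p => if h : Joined x0 x ∧ Joined x0 y then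
    m h.1.somePath ≫ m p ≫ inv (m h.2.somePath) else 1, ⟨fun x y z p q _ _ => ?_,
    fun x y p q F _ => ?_⟩, fun y p q h => ?_⟩
  · by_cases h : Joined x0 x
    · have h1 : Joined x0 y := h.trans ⟨p⟩
      have h2 : Joined x0 z := h1.trans ⟨q⟩
      rw [dif_pos ⟨h, h2⟩, dif_pos ⟨h, h1⟩, dif_pos ⟨h1, h2⟩, mt, Groupoid.vertexGroup_mul]
      simp
    · have h1 : ¬ Joined x0 y := fun k => h (k.trans ⟨p.symm⟩)
      rw [dif_neg fun k => h k.1, dif_neg fun k => h k.1, dif_neg fun k => h1 k.1, mul_one]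
  · have : m p = m q := Path.Homotopic.Quotient.eq.2 ⟨F⟩
    simp only [this]
  · have h1 : Joined x0 x0 ∧ Joined x0 y := ⟨Joined.refl _, ⟨p⟩⟩
    simp only [dif_pos h1] at h
    have : m p = m q := (cancel_mono _).1 ((cancel_epi _).1 h)
    exact Path.Homotopic.Quotient.eq.1 this

theorem lcv_bd {M dM : Set V} (h : Mf M dM) : LCv dM := by
  intro x hx W hW
  obtain ⟨B, e, e0, hB, -, hd⟩ := h.2.2 x hx
  have lin : Convex ℝ fl := convex_hyperplane (f := fun z : V => z 2) ⟨fun _ _ => rfl, fun _ _ => rfl⟩ 0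
  refine lcv_at ((convex_closedBall _ _).inter lin)
    (e.restrImage (inter_subset_left : cube 3 ∩ fl ⊆ cube 3)) (hd ▸ inter_subset_right)
    (hd ▸ ⟨mem_of_mem_nhds hB, hx⟩) ?_ hW
  rw [← hd, inter_comm]
  exact inter_mem_nhdsWithin _ hB

theorem lcv_sub {X : Type} [TopologicalSpace X] {S : Set X} (h : LCv S) :
    LCv (univ : Set S) := by
  classical
  intro x _ W hW
  obtain ⟨W', hW', hs⟩ := (mem_nhds_subtype S x W).1 hW
  obtain ⟨N, h1, h2, n, K, f, g, hK, hf, hg, mf, mg, e⟩ := h x x.2 W' hW'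
  refine ⟨Subtype.val ⁻¹' N, ?_, fun y hy => ⟨hs (h2 hy).1, trivial⟩, n, K,
    fun k => if hk : f k ∈ S then ⟨f k, hk⟩ else x, fun y => g y, hK, ?_,
    hg.comp continuous_subtype_val.continuousOn fun y hy => hy, fun k hk => ?_,
    fun y hy => mg hy, fun y hy => ?_⟩
  · rw [nhdsWithin_univ]; exact preimage_coe_mem_nhds_subtype.2 h1
  · refine IsInducing.subtypeVal.continuousOn_iff.2 (hf.congr fun k hk => ?_)
    simp only [Function.comp, dif_pos (h2 (mf hk)).2]
  · simp only [mem_preimage, dif_pos (h2 (mf hk)).2]; exact mf hk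
  · apply Subtype.ext
    simp only [dif_pos (h2 (mf (mg hy))).2]; exact e y hy

/-- the two ends of the antidiagonal at height `t` -/
noncomputable def mm (t : ℝ) : ℝ := min (4 * t - 1) 1
noncomputable def nn (t : ℝ) : ℝ := max (4 * t - 3) (-1)

/-- the square swept by antidiagonals -/
noncomputable def qq (s t : ℝ) : P := ![(1 - s) * mm t + s * nn t, (1 - s) * nn t + s * mm t]

theorem mm_add (t : ℝ) : mm t + nn t = 4 * t - 2 := by
  unfold mm nn
  rcases le_total (4 * t) 2 with h | h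
  · rw [min_eq_left (by linarith), max_eq_right (by linarith)]; ring
  · rw [min_eq_right (by linarith), max_eq_left (by linarith)]; ring

theorem qq_cont : Continuous fun z : ℝ × ℝ => qq z.1 z.2 := by
  refine continuous_pi fun i => ?_
  fin_cases i <;> simp only [qq, mm, nn] <;> simp <;> fun_prop

theorem qq_sph {t : ℝ} (h0 : 0 ≤ t) (h1 : t ≤ 1) : qq 0 t ∈ sph 2 ∧ qq 1 t ∈ sph 2 := by
  have a : |mm t| ≤ 1 := abs_le.2 ⟨le_min (by linarith) (by norm_num), min_le_right _ _⟩
  have b : |nn t| ≤ 1 := abs_le.2 ⟨le_max_right _ _, max_le (by linarith) (by norm_num)⟩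
  have c : |mm t| = 1 ∨ |nn t| = 1 := by
    unfold mm nn
    rcases le_total (4 * t) 2 with h | h
    · right; rw [max_eq_right (by linarith)]; simp
    · left; rw [min_eq_right (by linarith)]; simp
  simp only [mem_sph2, mem_cube, Fin.forall_fin_two, qq]
  simp [a, b, c, c.symm]

theorem qq_fib {s t s' t' : ℝ} (h0 : 0 ≤ t) (h1 : t ≤ 1) (h : qq s t = qq s' t') :
    t = t' ∧ (s = s' ∨ t = 0 ∨ t = 1) := by
  have a : (1 - s) * mm t + s * nn t = (1 - s') * mm t' + s' * nn t' := congrFun h 0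
  have b : (1 - s) * nn t + s * mm t = (1 - s') * nn t' + s' * mm t' := congrFun h 1
  have e : t = t' := by linarith [mm_add t, mm_add t']
  subst e
  refine ⟨rfl, ?_⟩
  have c : (s - s') * (mm t - nn t) = 0 := by linarith
  rcases mul_eq_zero.1 c with c | c
  · exact Or.inl (sub_eq_zero.1 c)
  · right
    unfold mm nn at c
    rcases le_total (4 * t) 2 with h | h
    · rw [min_eq_left (by linarith), max_eq_right (by linarith)] at c; left; linarith
    · rw [min_eq_right (by linarith), max_eq_left (by linarith)] at c; right; linarith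

theorem qq_sur {x : P} (hx : x ∈ cube 2) : ∃ s t : I, qq s t = x ∧ (x ∈ sph 2 → s = 0 ∨ s = 1) := by
  have h0 := abs_le.1 (mem_cube.1 hx 0)
  have h1 := abs_le.1 (mem_cube.1 hx 1)
  let t : I := ⟨(x 0 + x 1 + 2) / 4, by constructor <;> linarith⟩
  have em : mm t = min (x 0 + x 1 + 1) 1 := by unfold mm; congr 1; simp only [t]; ring
  have en : nn t = max (x 0 + x 1 - 1) (-1) := by unfold nn; congr 1; simp only [t]; ring
  have ea : mm t + nn t = x 0 + x 1 := by rw [mm_add]; simp only [t]; ring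
  have key : ∀ s : ℝ, (1 - s) * mm t + s * nn t = x 0 → qq s t = x := fun s hs => by
    ext i
    fin_cases i
    · exact hs
    · show (1 - s) * nn t + s * mm t = x 1
      linarith
  by_cases c0 : x 0 = mm t
  · exact ⟨0, t, key _ (by simp [c0]), fun _ => Or.inl rfl⟩
  by_cases c1 : x 0 = nn t
  · exact ⟨1, t, key _ (by simp [c1]), fun _ => Or.inr rfl⟩
  have a : x 0 < mm t := lt_of_le_of_ne (by rw [em]; exact le_min (by linarith) h0.2) c0
  have b : nn t < x 0 := lt_of_le_of_ne (by rw [en]; exact max_le (by linarith) h0.1) (Ne.symm c1)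
  have d : 0 < mm t - nn t := by linarith
  refine ⟨⟨(mm t - x 0) / (mm t - nn t), div_nonneg (by linarith) d.le,
    (div_le_one d).2 (by linarith)⟩, t, key _ (by simp only; field_simp; ring), fun hs => ?_⟩
  exfalso
  rw [em, lt_min_iff] at a
  rw [en, max_lt_iff] at b
  rcases (mem_sph2.1 hs).2 with k | k <;> rcases abs_eq zero_le_one |>.1 k with k | k <;> linarith

/-- a homotopy between the two halves of the boundary fills the square -/
theorem null_of_homotopy {F : Set V} {f : P → V} (H : I × I → V) (hc : Continuous H)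
    (hm : ∀ z, H z ∈ F) (h0 : ∀ t, H (0, t) = f (qq 0 t)) (h1 : ∀ t, H (1, t) = f (qq 1 t))
    (e0 : ∀ s s', H (s, 0) = H (s', 0)) (e1 : ∀ s s', H (s, 1) = H (s', 1)) :
    Null F f (cube 2) (sph 2) := by
  classical
  let q : I × I → P := fun z => qq z.1 z.2
  have qc : Continuous q := qq_cont.comp (f := fun z : I × I => ((z.1 : ℝ), (z.2 : ℝ))) (by fun_prop)
  have fib : ∀ z z', q z = q z' → H z = H z' := by
    rintro ⟨s, t⟩ ⟨s', t'⟩ e
    obtain ⟨a, b⟩ := qq_fib t.2.1 t.2.2 e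
    obtain rfl : t = t' := Subtype.ext a
    rcases b with b | b | b
    · rw [(Subtype.ext b : s = s')]
    · rw [(Subtype.ext b : t = 0)]; exact e0 _ _
    · rw [(Subtype.ext b : t = 1)]; exact e1 _ _
  let g : P → V := fun x => H (Function.invFun q x)
  have gq : ∀ z, g (q z) = H z := fun z => fib _ _ (Function.invFun_eq ⟨z, rfl⟩)
  refine ⟨g, continuousOn_iff_isClosed.2 fun C hC => ⟨q '' (H ⁻¹' C),
    ((hC.preimage hc).isCompact.image qc).isClosed, ?_⟩, fun x _ => hm _, fun x hx => ?_⟩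
  · ext x
    constructor
    · rintro ⟨a, b⟩
      obtain ⟨s, t, rfl, -⟩ := qq_sur b
      exact ⟨⟨(s, t), by rw [mem_preimage, ← gq]; exact a, rfl⟩, b⟩
    · rintro ⟨⟨z, a, rfl⟩, b⟩
      exact ⟨by rw [mem_preimage, gq]; exact a, b⟩
  · obtain ⟨s, t, e, k⟩ := qq_sur (sphere_subset_closedBall hx)
    rw [← e]
    rcases k hx with rfl | rfl
    · exact (gq (0, t)).trans (h0 t)
    · exact (gq (1, t)).trans (h1 t)

/-- **(UNIV)** -/
theorem lt_of_ltc (h : LTc) : LTStmt := by
  classical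
  intro M dM hM f hf hfM hfd hn
  have sc : sph 2 ⊆ cube 2 := sphere_subset_closedBall
  let x0 : dM := ⟨f (qq 0 0), hfd (qq_sph le_rfl zero_le_one).1⟩
  let ρ : V → dM := fun x => if hx : x ∈ dM then ⟨x, hx⟩ else x0
  have ρv : ∀ x ∈ dM, (ρ x).1 = x := fun x hx => by simp only [ρ, dif_pos hx]
  have ρc : ContinuousOn ρ dM :=
    IsInducing.subtypeVal.continuousOn_iff.2 (continuousOn_id.congr fun x hx => ρv x hx)
  obtain ⟨Γ, _, φ, hφ, hu⟩ := exists_pf (ρ (f (qq 0 0)))
  obtain ⟨c, hc, hc'⟩ := hφ.exists_coc (lcv_sub (lcv_bd hM)).lsc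
  have hc2 : Coc dM fun x y => c (ρ x) (ρ y) := hc.comp ρc (mapsTo_univ _ _)
  obtain ⟨D, h1, h2, -, h4⟩ := h Γ M dM dM _ f hM ⟨univ, isOpen_univ, (univ_inter _).symm⟩ hc2 hf hfM
    hfd (by
      rintro ⟨b, hb⟩
      have qc : ∀ s : ℝ, Continuous fun t : ℝ => qq s t := fun s =>
        qq_cont.comp (f := fun t : ℝ => (s, t)) (by fun_prop)
      have pc : ∀ s : ℝ, (∀ t : I, qq s t ∈ sph 2) → Continuous fun t : I => ρ (f (qq s t)) :=
        fun s hs => (ρc.comp (hf.mono sc) hfd).comp_continuous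
          ((qc s).comp continuous_subtype_val) hs
      have q0 : qq 1 0 = qq 0 0 := by ext i; fin_cases i <;> norm_num [qq, mm, nn]
      have q1 : qq 1 1 = qq 0 1 := by ext i; fin_cases i <;> norm_num [qq, mm, nn]
      let p0 : Path (ρ (f (qq 0 0))) (ρ (f (qq 0 1))) :=
        ⟨⟨_, pc 0 fun t => (qq_sph t.2.1 t.2.2).1⟩, rfl, rfl⟩
      let p1 : Path (ρ (f (qq 0 0))) (ρ (f (qq 0 1))) :=
        ⟨⟨_, pc 1 fun t => (qq_sph t.2.1 t.2.2).2⟩, by rw [← q0]; rfl, by rw [← q1]; rfl⟩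
      have ho : ∀ (s : ℝ) (p : Path (ρ (f (qq 0 0))) (ρ (f (qq 0 1)))),
          (∀ t ∈ Icc (0 : ℝ) 1, qq s t ∈ sph 2) → (∀ t : I, p t = ρ (f (qq s t))) →
          φ _ _ p = (b (qq s 0))⁻¹ * b (qq s 1) := fun s p hs hp => by
        rw [← hφ.hol_eq hc' p fun _ => trivial, hol_congr hc (path_cont p) (mapsTo_univ _ _)
          (γ' := fun t => ρ (f (qq s t))) fun t ht => by rw [p.extend_apply ht, hp]]
        exact hol_prim hb (qc s).continuousOn hs
      obtain ⟨H⟩ := hu _ p0 p1 (by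
        rw [ho 0 p0 (fun t ht => (qq_sph ht.1 ht.2).1) fun _ => rfl,
          ho 1 p1 (fun t ht => (qq_sph ht.1 ht.2).2) fun _ => rfl, q0, q1])
      refine hn (null_of_homotopy (fun z => (H z).1) (continuous_subtype_val.comp H.continuous)
        (fun z => (H z).2) (fun t => ?_) (fun t => ?_) (fun s s' => ?_) fun s s' => ?_)
      · rw [H.apply_zero]; exact ρv _ (hfd (qq_sph t.2.1 t.2.2).1)
      · rw [H.apply_one]; exact ρv _ (hfd (qq_sph t.2.1 t.2.2).2)
      · simp only [H.source]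
      · simp only [H.target])
  refine ⟨D, _, h1, h2, rfl, fun ⟨g, g1, g2, g3⟩ => h4 ?_⟩
  obtain ⟨b, hb⟩ := (cvx_ball h1).tr _ (hc2.comp g1 g2)
  exact ⟨b, (hb.mono inter_subset_left).congr (geq_of_eq fun x hx y hy => by
    rw [g3 hx, g3 hy]; rfl)⟩

end Crest.Agent.X212.Tw9
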