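import Crest.Agent.X212.Lad50.PL

/-!
# X212 / T layer, tower (helper9): two complementary open cones of the plane are half planes
-/

set_option autoImplicit false

open Set Metric Topology Filter

namespace Crest.Agent.X212.Tw9

open Crest.Agent.R096.Ce_537
open Crest.Agent.X212.Lad50

/-- two complementary open connected cones -/
structure Cones (C1 C2 : Set ℂ) : Prop where
  o1 : IsOpen C1
  o2 : IsOpen C2
  c1 : IsPreconnected C1
  c2 : IsPreconnected C2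
  n1 : C1.Nonempty
  n2 : C2.Nonempty
  dj : Disjoint C1 C2
  s1 : ∀ z ∈ C1, ∀ r : ℝ, 0 < r → r • z ∈ C1
  s2 : ∀ z ∈ C2, ∀ r : ℝ, 0 < r → r • z ∈ C2
  den : Dense (C1 ∪ C2)

theorem Cones.symm {C1 C2 : Set ℂ} (h : Cones C1 C2) : Cones C2 C1 :=
  ⟨h.o2, h.o1, h.c2, h.c1, h.n2, h.n1, h.dj.symm, h.s2, h.s1, by rw [union_comm]; exact h.den⟩

theorem Cones.zero {C1 C2 : Set ℂ} (h : Cones C1 C2) : (0 : ℂ) ∉ C1 := by
  intro h0
  obtain ⟨z, hz⟩ := h.n2
  have ht : Tendsto (fun r : ℝ => r • z) (𝓝[>] 0) (𝓝 0) := by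
    have : Tendsto (fun r : ℝ => r • z) (𝓝 0) (𝓝 ((0 : ℝ) • z)) :=
      (continuous_id.smul continuous_const).tendsto 0
    rw [zero_smul] at this
    exact this.mono_left nhdsWithin_le_nhds
  obtain ⟨r, h1, h2⟩ := ((ht.eventually (h.o1.mem_nhds h0)).and self_mem_nhdsWithin).exists
  exact disjoint_left.1 h.dj h1 (h.s2 z hz r h2)

theorem eq_smul_of_arg {z w : ℂ} (hz : z ≠ 0) (hw : w ≠ 0) (h : Complex.arg z = Complex.arg w) :
    ∃ r : ℝ, 0 < r ∧ z = r • w := by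
  refine ⟨‖z‖ / ‖w‖, div_pos (norm_pos_iff.2 hz) (norm_pos_iff.2 hw), ?_⟩
  have h2 := (Complex.arg_eq_arg_iff hw hz).1 h.symm
  rw [Complex.real_smul]
  push_cast
  exact h2.symm

theorem exists_arg {C : Set ℂ} (hd : Dense C) {a b : ℝ} (hab : a < b) (ha : -Real.pi ≤ a)
    (hb : b ≤ Real.pi) : ∃ w ∈ C, w ∈ Complex.slitPlane ∧ a < w.arg ∧ w.arg < b := by
  have ho : IsOpen (Complex.slitPlane ∩ Complex.arg ⁻¹' Ioo a b) :=
    Complex.continuousOn_arg.isOpen_inter_preimage Complex.isOpen_slitPlane isOpen_Ioo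
  have hm : (a + b) / 2 ∈ Ioc (-Real.pi) Real.pi := ⟨by linarith, by linarith⟩
  have h1 := Complex.arg_cos_add_sin_mul_I hm
  have hne : (Complex.slitPlane ∩ Complex.arg ⁻¹' Ioo a b).Nonempty := by
    refine ⟨Complex.cos ((a + b) / 2 : ℝ) + Complex.sin ((a + b) / 2 : ℝ) * Complex.I, ?_, ?_⟩
    · rw [Complex.mem_slitPlane_iff_arg, h1]
      refine ⟨by linarith, ?_⟩
      rw [← Complex.exp_mul_I]
      exact Complex.exp_ne_zero _
    · rw [mem_preimage, h1]; exact ⟨by linarith, by linarith⟩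
  obtain ⟨w, ⟨h2, h3⟩, h4⟩ := hd.inter_open_nonempty _ ho hne
  exact ⟨w, h4, h2, h3.1, h3.2⟩

theorem Cones.slit {C1 C2 : Set ℂ} (h : Cones C1 C2) (hp : (-1 : ℂ) ∉ C1) :
    C1 ⊆ Complex.slitPlane := by
  intro z hz
  by_contra hc
  rw [Complex.mem_slitPlane_iff, not_or, not_lt, not_not] at hc
  rcases eq_or_lt_of_le hc.1 with h0 | h0
  · have : z = 0 := Complex.ext (by simpa using h0) (by simpa using hc.2)
    exact h.zero (this ▸ hz)
  · have h1 := h.s1 z hz (-z.re)⁻¹ (inv_pos.2 (by linarith))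
    have h2 : ((-z.re)⁻¹ : ℝ) • z = -1 := by
      apply Complex.ext
      · simp only [Complex.real_smul, Complex.mul_re, Complex.ofReal_re, Complex.ofReal_im,
          zero_mul, sub_zero, Complex.neg_re, Complex.one_re]
        field_simp [h0.ne]
      · simp [hc.2]
    exact hp (h2 ▸ h1)

theorem Cones.ray_aux {C1 C2 : Set ℂ} (h : Cones C1 C2) (p1 : (-1 : ℂ) ∉ C1)
    (p2 : (-1 : ℂ) ∉ C2) {z1 z2 : ℂ} (h1 : z1 ∈ C1) (h2 : z2 ∈ C2) (hlt : z1.arg < z2.arg) :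
    ∃ β, -Real.pi < β ∧ β < Real.pi ∧ ∀ z ∈ Complex.slitPlane, z.arg ≠ β → z ∈ C1 ∪ C2 := by
  have sl1 := h.slit p1
  have sl2 := h.symm.slit p2
  have i1 : (Complex.arg '' C1).OrdConnected :=
    (h.c1.image _ (Complex.continuousOn_arg.mono sl1)).ordConnected
  have i2 : (Complex.arg '' C2).OrdConnected :=
    (h.c2.image _ (Complex.continuousOn_arg.mono sl2)).ordConnected
  have m1 : ∀ z ∈ Complex.slitPlane, z.arg ∈ Complex.arg '' C1 → z ∈ C1 := by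
    rintro z hz ⟨w, hw, e⟩
    obtain ⟨r, hr, rfl⟩ := eq_smul_of_arg (Complex.slitPlane_ne_zero hz)
      (Complex.slitPlane_ne_zero (sl1 hw)) e.symm
    exact h.s1 w hw r hr
  have m2 : ∀ z ∈ Complex.slitPlane, z.arg ∈ Complex.arg '' C2 → z ∈ C2 := by
    rintro z hz ⟨w, hw, e⟩
    obtain ⟨r, hr, rfl⟩ := eq_smul_of_arg (Complex.slitPlane_ne_zero hz)
      (Complex.slitPlane_ne_zero (sl2 hw)) e.symm
    exact h.s2 w hw r hr
  have lt : ∀ w1 ∈ C1, ∀ w2 ∈ C2, w1.arg < w2.arg := by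
    intro w1 hw1 w2 hw2
    by_contra hc
    rw [not_lt] at hc
    rcases le_total w2.arg z1.arg with h3 | h3
    · have : z1.arg ∈ Complex.arg '' C2 := i2.out ⟨w2, hw2, rfl⟩ ⟨z2, h2, rfl⟩ ⟨h3, hlt.le⟩
      exact disjoint_left.1 h.dj h1 (m2 z1 (sl1 h1) this)
    · have : w2.arg ∈ Complex.arg '' C1 := i1.out ⟨z1, h1, rfl⟩ ⟨w1, hw1, rfl⟩ ⟨h3, hc⟩
      exact disjoint_left.1 h.dj (m1 w2 (sl2 hw2) this) hw2
  have bdd : BddAbove (Complex.arg '' C1) := ⟨z2.arg, by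
    rintro _ ⟨w, hw, rfl⟩; exact (lt w hw z2 h2).le⟩
  have ne : (Complex.arg '' C1).Nonempty := ⟨_, z1, h1, rfl⟩
  have hpi : ∀ z ∈ Complex.slitPlane, z.arg < Real.pi := fun z hz =>
    lt_of_le_of_ne (Complex.arg_le_pi z) (Complex.mem_slitPlane_iff_arg.1 hz).1
  refine ⟨sSup (Complex.arg '' C1), ?_, ?_, ?_⟩
  · exact lt_of_lt_of_le (Complex.neg_pi_lt_arg z1) (le_csSup bdd ⟨z1, h1, rfl⟩)
  · refine lt_of_le_of_lt (csSup_le ne ?_) (hpi z2 (sl2 h2))
    rintro _ ⟨w, hw, rfl⟩; exact (lt w hw z2 h2).le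
  · intro z hz hne
    rcases lt_or_gt_of_ne hne with h3 | h3
    · obtain ⟨_, ⟨w, hw, rfl⟩, h4⟩ := exists_lt_of_lt_csSup ne h3
      obtain ⟨w', hw', -, -, h6⟩ := exists_arg h.den (Complex.neg_pi_lt_arg z) le_rfl
        (Complex.arg_le_pi z)
      rcases hw' with hw' | hw'
      · exact Or.inl (m1 z hz (i1.out ⟨w', hw', rfl⟩ ⟨w, hw, rfl⟩ ⟨h6.le, h4.le⟩))
      · exact absurd (lt w hw w' hw') (by linarith)
    · have hb : -Real.pi ≤ sSup (Complex.arg '' C1) :=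
        (lt_of_lt_of_le (Complex.neg_pi_lt_arg z1) (le_csSup bdd ⟨z1, h1, rfl⟩)).le
      obtain ⟨w, hw, -, h5, h6⟩ := exists_arg h.den h3 hb (Complex.arg_le_pi z)
      obtain ⟨w', hw', -, h7, -⟩ := exists_arg h.den (hpi z hz) (Complex.neg_pi_lt_arg z).le le_rfl
      have k : ∀ v ∈ C1 ∪ C2, sSup (Complex.arg '' C1) < v.arg → v ∈ C2 := by
        rintro v (hv | hv) hlt
        · exact absurd (le_csSup bdd ⟨v, hv, rfl⟩) (not_le.2 hlt)
        · exact hv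
      exact Or.inr (m2 z hz (i2.out ⟨w, k w hw h5, rfl⟩ ⟨w', k w' hw' (by linarith), rfl⟩
        ⟨h6.le, h7.le⟩))

theorem Cones.ray {C1 C2 : Set ℂ} (h : Cones C1 C2) (p1 : (-1 : ℂ) ∉ C1) (p2 : (-1 : ℂ) ∉ C2) :
    ∃ β, -Real.pi < β ∧ β < Real.pi ∧ ∀ z ∈ Complex.slitPlane, z.arg ≠ β → z ∈ C1 ∪ C2 := by
  obtain ⟨z1, h1⟩ := h.n1
  obtain ⟨z2, h2⟩ := h.n2
  rcases lt_trichotomy z1.arg z2.arg with h3 | h3 | h3
  · exact h.ray_aux p1 p2 h1 h2 h3
  · obtain ⟨r, hr, e⟩ := eq_smul_of_arg (Complex.slitPlane_ne_zero (h.slit p1 h1))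
      (Complex.slitPlane_ne_zero (h.symm.slit p2 h2)) h3
    exact absurd (e ▸ h.s2 z2 h2 r hr) (disjoint_left.1 h.dj h1)
  · obtain ⟨β, a, b, c⟩ := h.symm.ray_aux p2 p1 h2 h1 h3
    exact ⟨β, a, b, fun z hz hne => (union_comm C2 C1) ▸ c z hz hne⟩

/-- a global PL homeomorphism of planes fixing the origin -/
structure PH (θ : ℂ → ℝ × ℝ) (θ' : ℝ × ℝ → ℂ) : Prop where
  pl : PLOn θ univ
  pl' : PLOn θ' univ
  li : ∀ z, θ' (θ z) = z
  ri : ∀ w, θ (θ' w) = w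
  zero : θ 0 = 0

theorem PH.flip {θ : ℂ → ℝ × ℝ} {θ' : ℝ × ℝ → ℂ} (h : PH θ θ') :
    PH (fun z => ((θ z).1, -(θ z).2)) (fun w => θ' (w.1, -w.2)) where
  pl := pl_prod (pl_fst h.pl) (pl_neg (pl_snd h.pl))
  pl' := h.pl'.comp (pl_prod (pl_fst (plOn_id _)) (pl_neg (pl_snd (plOn_id _)))) (mapsTo_univ _ _)
  li z := by simp [h.li]
  ri w := by simp [h.ri]
  zero := by simp [h.zero]

theorem Cones.sides {C1 C2 : Set ℂ} (h : Cones C1 C2) {θ : ℂ → ℝ × ℝ} {θ' : ℝ × ℝ → ℂ}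
    (k : PH θ θ') (H : ∀ z, (θ z).2 ≠ 0 → z ∈ C1 ∪ C2) :
    ∃ θ θ', PH θ θ' ∧ (∀ z, z ∈ C1 ↔ 0 < (θ z).2) ∧ ∀ z, z ∈ C2 ↔ (θ z).2 < 0 := by
  have ct : Continuous θ' := continuousOn_univ.1 k.pl'.1
  have key : ∀ s : ℝ, s ≠ 0 → (∀ z, 0 < s * (θ z).2 → z ∈ C1) ∨ ∀ z, 0 < s * (θ z).2 → z ∈ C2 := by
    intro s hs
    have cv : Convex ℝ {w : ℝ × ℝ | 0 < s * w.2} :=
      convex_halfSpace_gt (f := fun w : ℝ × ℝ => s * w.2)
        ⟨fun a b => by simp [mul_add], fun c a => by simp; ring⟩ 0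
    have pc := cv.isPreconnected.image θ' ct.continuousOn
    have sub : θ' '' {w : ℝ × ℝ | 0 < s * w.2} ⊆ C1 ∪ C2 := by
      rintro _ ⟨w, hw, rfl⟩
      apply H
      rw [k.ri]
      intro h0
      have hw' : 0 < s * w.2 := hw
      rw [h0, mul_zero] at hw'
      exact lt_irrefl _ hw'
    rcases pc.subset_or_subset h.o1 h.o2 h.dj sub with h3 | h3
    · exact Or.inl fun z hz => h3 ⟨θ z, hz, k.li z⟩
    · exact Or.inr fun z hz => h3 ⟨θ z, hz, k.li z⟩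
  have near : ∀ (C : Set ℂ) (s : ℝ), s * s = 1 → IsOpen C → ∀ z ∈ C, 0 ≤ s * (θ z).2 →
      ∃ z' ∈ C, 0 < s * (θ z').2 := by
    intro C s hs hC z hz h0
    have ht : Tendsto (fun r : ℝ => θ' ((θ z).1, (θ z).2 + r * s)) (𝓝[>] 0) (𝓝 z) := by
      have : Tendsto (fun r : ℝ => θ' ((θ z).1, (θ z).2 + r * s)) (𝓝 0)
          (𝓝 (θ' ((θ z).1, (θ z).2 + 0 * s))) := by
        apply Continuous.tendsto
        fun_prop
      rw [zero_mul, add_zero, Prod.mk.eta, k.li] at this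
      exact this.mono_left nhdsWithin_le_nhds
    obtain ⟨r, h1, h2⟩ := ((ht.eventually (hC.mem_nhds hz)).and self_mem_nhdsWithin).exists
    refine ⟨_, h1, ?_⟩
    rw [k.ri]
    have h3 : (0 : ℝ) < r := h2
    show 0 < s * ((θ z).2 + r * s)
    nlinarith
  have fin : ∀ (A B : Set ℂ) (s : ℝ), s * s = 1 → IsOpen A → Disjoint A B →
      (∀ z, 0 < s * (θ z).2 → z ∈ A) → (∀ z, 0 < -s * (θ z).2 → z ∈ B) →
      ∀ z, z ∈ A ↔ 0 < s * (θ z).2 := by
    intro A B s hs hA hd ha hb z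
    refine ⟨fun hz => ?_, ha z⟩
    by_contra hc
    obtain ⟨z', h1, h2⟩ := near A (-s) (by linarith) hA z hz (by linarith)
    exact disjoint_left.1 hd h1 (hb z' h2)
  have bad : ∀ (A B : Set ℂ), IsOpen B → B.Nonempty → Disjoint A B →
      (∀ z, 0 < 1 * (θ z).2 → z ∈ A) → (∀ z, 0 < -1 * (θ z).2 → z ∈ A) → False := by
    rintro A B hB ⟨z, hz⟩ hd ha hb
    rcases le_total 0 (θ z).2 with h0 | h0
    · obtain ⟨z', h1, h2⟩ := near B 1 (by norm_num) hB z hz (by linarith)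
      exact disjoint_left.1 hd (ha z' h2) h1
    · obtain ⟨z', h1, h2⟩ := near B (-1) (by norm_num) hB z hz (by linarith)
      exact disjoint_left.1 hd (hb z' h2) h1
  rcases key 1 one_ne_zero with a | a <;> rcases key (-1) (by norm_num) with b | b
  · exact (bad C1 C2 h.o2 h.n2 h.dj a b).elim
  · refine ⟨θ, θ', k, fun z => ?_, fun z => ?_⟩
    · rw [fin C1 C2 1 (by norm_num) h.o1 h.dj a b z, one_mul]
    · rw [fin C2 C1 (-1) (by norm_num) h.o2 h.dj.symm b (by simpa using a) z]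
      constructor <;> intro h <;> linarith
  · refine ⟨_, _, k.flip, fun z => ?_, fun z => ?_⟩
    · rw [fin C1 C2 (-1) (by norm_num) h.o1 h.dj b (by simpa using a) z]
      constructor <;> intro h <;> simp only at h ⊢ <;> linarith
    · rw [fin C2 C1 1 (by norm_num) h.o2 h.dj.symm a b z]
      constructor <;> intro h <;> simp only at h ⊢ <;> linarith
  · exact (bad C2 C1 h.o1 h.n1 h.dj.symm a b).elim

theorem pl_re {E : Type*} [NormedAddCommGroup E] [NormedSpace ℝ E] {f : E → ℂ} {K : Set E}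
    (hf : PLOn f K) : PLOn (fun x => (f x).re) K := pl_map Complex.reCLM hf

theorem pl_im {E : Type*} [NormedAddCommGroup E] [NormedSpace ℝ E] {f : E → ℂ} {K : Set E}
    (hf : PLOn f K) : PLOn (fun x => (f x).im) K := pl_map Complex.imCLM hf

/-- **two complementary cones are half planes** -/
theorem Cones.plane {C1 C2 : Set ℂ} (h : Cones C1 C2) :
    ∃ θ θ', PH θ θ' ∧ (∀ z, z ∈ C1 ↔ 0 < (θ z).2) ∧ ∀ z, z ∈ C2 ↔ (θ z).2 < 0 := by
  -- a non-zero point of the complement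
  obtain ⟨p, hp0, hp⟩ : ∃ p : ℂ, p ≠ 0 ∧ p ∉ C1 ∪ C2 := by
    by_contra hc
    push Not at hc
    have pc : IsPreconnected ({0}ᶜ : Set ℂ) :=
      (isConnected_compl_singleton_of_one_lt_rank (by simp) 0).isPreconnected
    obtain ⟨z1, h1⟩ := h.n1
    obtain ⟨z2, h2⟩ := h.n2
    rcases pc.subset_or_subset h.o1 h.o2 h.dj (fun z hz => hc z hz) with h3 | h3
    · exact disjoint_left.1 h.dj (h3 (fun e => h.symm.zero (e ▸ h2))) h2
    · exact disjoint_left.1 h.dj h1 (h3 (fun e => h.zero (e ▸ h1)))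
  let A : ℂ ≃ₜ ℂ := Homeomorph.mulLeft₀ (-p) (neg_ne_zero.2 hp0)
  have hA : ∀ z, A z = -p * z := fun _ => rfl
  have h' : Cones (A ⁻¹' C1) (A ⁻¹' C2) := by
    refine ⟨h.o1.preimage A.continuous, h.o2.preimage A.continuous,
      A.isPreconnected_preimage.2 h.c1, A.isPreconnected_preimage.2 h.c2,
      h.n1.preimage A.surjective, h.n2.preimage A.surjective, h.dj.preimage A, ?_, ?_, ?_⟩
    · intro z hz r hr
      have := h.s1 _ hz r hr
      rwa [mem_preimage, hA, mul_smul_comm]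
    · intro z hz r hr
      have := h.s2 _ hz r hr
      rwa [mem_preimage, hA, mul_smul_comm]
    · rw [← preimage_union]
      exact h.den.preimage A.isOpenMap
  obtain ⟨β, b1, b2, hβ⟩ := h'.ray (fun e => hp (Or.inl (by simpa [hA] using e)))
    (fun e => hp (Or.inr (by simpa [hA] using e)))
  set c := Real.cos β with hc
  set s := Real.sin β with hs
  have cs : c ^ 2 + s ^ 2 = 1 := Real.cos_sq_add_sin_sq β
  have c1 : 0 < c + 1 := by
    have h1 : Real.cos Real.pi < Real.cos |β| :=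
      Real.cos_lt_cos_of_nonneg_of_le_pi (abs_nonneg β) le_rfl (abs_lt.2 ⟨b1, b2⟩)
    rw [Real.cos_pi, Real.cos_abs] at h1
    linarith
  let θ0 : ℂ → ℝ × ℝ := fun z => ((c + 1) * z.re + s * z.im,
    -s * z.re + (c + 1) * z.im - s / (c + 1) * |(c + 1) * z.re + s * z.im|)
  let θ1 : ℝ × ℝ → ℂ := fun w =>
    ((1 / 2) * w.1 - s / (2 * (c + 1)) * (w.2 + s / (c + 1) * |w.1|)) • (1 : ℂ) +
    (s / (2 * (c + 1)) * w.1 + (1 / 2) * (w.2 + s / (c + 1) * |w.1|)) • Complex.I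
  have re1 : ∀ w, (θ1 w).re = (1 / 2) * w.1 - s / (2 * (c + 1)) * (w.2 + s / (c + 1) * |w.1|) := by
    intro w
    simp only [θ1, Complex.add_re, Complex.smul_re, Complex.one_re, Complex.I_re, smul_eq_mul]
    ring
  have im1 : ∀ w, (θ1 w).im = s / (2 * (c + 1)) * w.1 + (1 / 2) * (w.2 + s / (c + 1) * |w.1|) := by
    intro w
    simp only [θ1, Complex.add_im, Complex.smul_im, Complex.one_im, Complex.I_im, smul_eq_mul]
    ring
  have s2 : s ^ 2 = (c + 1) * (1 - c) := by linarith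
  have li : ∀ z, θ1 (θ0 z) = z := by
    intro z
    apply Complex.ext
    · rw [re1]; simp only [θ0]; field_simp; linear_combination ((c + 1) * z.re) * s2
    · rw [im1]; simp only [θ0]; field_simp; linear_combination (z.im) * s2
  have ri : ∀ w, θ0 (θ1 w) = w := by
    intro w
    have e1 : (c + 1) * (θ1 w).re + s * (θ1 w).im = w.1 := by
      rw [re1, im1]; field_simp; linear_combination (w.1) * s2
    refine Prod.ext e1 ?_
    show -s * (θ1 w).re + (c + 1) * (θ1 w).im -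
      s / (c + 1) * |(c + 1) * (θ1 w).re + s * (θ1 w).im| = w.2
    rw [e1, re1, im1]; field_simp; linear_combination ((c + 1) * w.2 + s * |w.1|) * s2
  have pid : PLOn (fun z : ℂ => (-p)⁻¹ * z) univ := pl_clm (ContinuousLinearMap.mul ℝ ℂ (-p)⁻¹) _
  have l1 := pl_add (pl_mul (c + 1) (pl_re pid)) (pl_mul s (pl_im pid))
  have w1 : PLOn (fun w : ℝ × ℝ => w.1) univ := pl_fst (plOn_id _)
  have w2 : PLOn (fun w : ℝ × ℝ => w.2 + s / (c + 1) * |w.1|) univ :=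
    pl_add (pl_snd (plOn_id _)) (pl_mul _ (pl_abs w1))
  have k : PH (fun z => θ0 ((-p)⁻¹ * z)) (fun w => -p * θ1 w) := by
    refine ⟨pl_prod l1 (pl_sub (pl_add (pl_mul (-s) (pl_re pid)) (pl_mul (c + 1) (pl_im pid)))
      (pl_mul _ (pl_abs l1))), pl_map (ContinuousLinearMap.mul ℝ ℂ (-p))
      (pl_add (pl_smul_const (pl_sub (pl_mul _ w1) (pl_mul _ w2)) _)
        (pl_smul_const (pl_add (pl_mul _ w1) (pl_mul _ w2)) _)), ?_, ?_, ?_⟩
    · intro z; rw [li, mul_inv_cancel_left₀ (neg_ne_zero.2 hp0)]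
    · intro w; rw [inv_mul_cancel_left₀ (neg_ne_zero.2 hp0), ri]
    · simp [θ0]
  refine h.sides k fun z hz => ?_
  have goal : ∀ y : ℂ, (θ0 y).2 ≠ 0 → y ∈ A ⁻¹' C1 ∪ A ⁻¹' C2 := by
    intro y hy
    by_cases hsl : y ∈ Complex.slitPlane
    · refine hβ y hsl fun e => hy ?_
      have h1 : y.re = ‖y‖ * c := by rw [hc, ← e, Complex.norm_mul_cos_arg]
      have h2 : y.im = ‖y‖ * s := by rw [hs, ← e, Complex.norm_mul_sin_arg]
      have h3 : (c + 1) * y.re + s * y.im = ‖y‖ * (c + 1) := by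
        rw [h1, h2]; linear_combination ‖y‖ * cs
      show -s * y.re + (c + 1) * y.im - s / (c + 1) * |(c + 1) * y.re + s * y.im| = 0
      rw [h3, abs_of_nonneg (by positivity), h1, h2]; field_simp; ring
    · exfalso
      apply hy
      rw [Complex.mem_slitPlane_iff, not_or, not_lt, not_not] at hsl
      show -s * y.re + (c + 1) * y.im - s / (c + 1) * |(c + 1) * y.re + s * y.im| = 0
      rw [hsl.2, mul_zero, mul_zero, add_zero, add_zero, abs_of_nonpos (by nlinarith [hsl.1])]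
      field_simp; ring
  have := goal _ hz
  rwa [← preimage_union, mem_preimage, hA, mul_inv_cancel_left₀ (neg_ne_zero.2 hp0)] at this

end Crest.Agent.X212.Tw9
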