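import Crest.Agent.X212.Tw9.Ch
import Crest.Agent.X212.Tw9.Plane

/-!
# X212 / T layer, tower (helper9): local cone structure of a triangulated manifold at a point of
the boundary, transversally to an edge
-/

set_option autoImplicit false

open Set Metric Topology Filter

namespace Crest.Agent.X212.Tw9

open Crest.Agent.R096.Ce_537
open Crest.Agent.X212.Prd34 (V P up fl Mf)
open Crest.Agent.X212.Dsc4
open Crest.Agent.X212.Lad50

/-- the two half boxes of a flat pair chart -/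
theorem mf_boxes {M dM : Set V} (h : Mf M dM) {y : V} (hy : y ∈ dM) {δ : ℝ} (hδ : 0 < δ) :
    ∃ (N1 N2 : Set V) (ρ : ℝ), 0 < ρ ∧ IsPreconnected N1 ∧ IsPreconnected N2 ∧ N1.Nonempty ∧
      N2.Nonempty ∧ N1 ⊆ (M \ dM) ∩ ball y δ ∧ N2 ⊆ Mᶜ ∩ ball y δ ∧ (M \ dM) ∩ ball y ρ ⊆ N1 ∧
      Mᶜ ∩ ball y ρ ⊆ N2 ∧ ball y ρ ⊆ closure (N1 ∪ N2) := by
  obtain ⟨B, e, e0, hB, hM, hdM⟩ := h.2.2 y hy
  have c0 : (0 : V) ∈ cube 3 := by simp [cube]
  have g0 : e.g y = 0 := by rw [← e0, e.li 0 c0]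
  have h1 : e.f ⁻¹' ball y δ ∈ 𝓝[cube 3] 0 := e.pf.1 _ c0 (by rw [e0]; exact ball_mem_nhds y hδ)
  obtain ⟨r', hr', h2⟩ := Metric.mem_nhdsWithin_iff.1 h1
  set r := min r' 1 with hr
  have r0 : 0 < r := lt_min hr' one_pos
  have bc : ball (0 : V) r ⊆ cube 3 := (ball_subset_ball (min_le_right _ _)).trans ball_subset_closedBall
  have fb : ∀ z ∈ ball (0 : V) r, e.f z ∈ ball y δ := fun z hz =>
    h2 ⟨ball_subset_ball (min_le_left _ _) hz, bc hz⟩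
  have h3 : e.g ⁻¹' ball 0 r ∈ 𝓝 y :=
    (e.pg.1.continuousAt hB) (by rw [g0]; exact ball_mem_nhds _ r0)
  obtain ⟨ρ, hρ, h4⟩ := Metric.mem_nhds_iff.1 (inter_mem h3 hB)
  have iM : ∀ z ∈ cube 3, e.f z ∈ M ↔ 0 ≤ z 2 := fun z hz => by
    constructor
    · intro h5
      obtain ⟨x, hx, h6⟩ : e.f z ∈ e.f '' (cube 3 ∩ up) := hM ▸ ⟨e.mf hz, h5⟩
      have : x = z := by rw [← e.li x hx.1, h6, e.li z hz]
      exact this ▸ hx.2
    · intro h5
      exact ((hM ▸ mem_image_of_mem _ ⟨hz, h5⟩ : e.f z ∈ B ∩ M)).2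
  have iD : ∀ z ∈ cube 3, e.f z ∈ dM ↔ z 2 = 0 := fun z hz => by
    constructor
    · intro h5
      obtain ⟨x, hx, h6⟩ : e.f z ∈ e.f '' (cube 3 ∩ fl) := hdM ▸ ⟨e.mf hz, h5⟩
      have : x = z := by rw [← e.li x hx.1, h6, e.li z hz]
      exact this ▸ hx.2
    · intro h5
      exact ((hdM ▸ mem_image_of_mem _ ⟨hz, h5⟩ : e.f z ∈ B ∩ dM)).2
  have lin : IsLinearMap ℝ (fun z : V => z 2) := ⟨fun _ _ => rfl, fun _ _ => rfl⟩
  have nb : ∀ s : ℝ, |s| < r → (fun _ => s : V) ∈ ball (0 : V) r := fun s hs => by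
    rw [mem_ball_zero_iff, pi_norm_const]; exact hs
  refine ⟨e.f '' (ball 0 r ∩ {z | 0 < z 2}), e.f '' (ball 0 r ∩ {z | z 2 < 0}), ρ, hρ,
    ((convex_ball _ _).inter (convex_halfSpace_gt lin 0)).isPreconnected.image _
      (e.pf.1.mono fun z hz => bc hz.1),
    ((convex_ball _ _).inter (convex_halfSpace_lt lin 0)).isPreconnected.image _
      (e.pf.1.mono fun z hz => bc hz.1),
    ⟨_, (fun _ => r / 2 : V), ⟨nb _ (by rw [abs_of_pos] <;> linarith), half_pos r0⟩, rfl⟩,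
    ⟨_, (fun _ => -(r / 2) : V), ⟨nb _ (by rw [abs_neg, abs_of_pos] <;> linarith),
      by show -(r / 2) < 0; linarith⟩, rfl⟩, ?_, ?_, ?_, ?_, ?_⟩
  · rintro _ ⟨z, hz, rfl⟩
    exact ⟨⟨(iM z (bc hz.1)).2 (le_of_lt hz.2), fun h5 => (ne_of_gt hz.2) ((iD z (bc hz.1)).1 h5)⟩,
      fb z hz.1⟩
  · rintro _ ⟨z, hz, rfl⟩
    exact ⟨fun h5 => not_le.2 hz.2 ((iM z (bc hz.1)).1 h5), fb z hz.1⟩
  · intro q hq
    have h5 := h4 hq.2
    have h6 := e.ri q h5.2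
    refine ⟨e.g q, ⟨h5.1, lt_of_le_of_ne ((iM _ (bc h5.1)).1 (by rw [h6]; exact hq.1.1)) fun h7 =>
      hq.1.2 ?_⟩, h6⟩
    rw [← h6]; exact (iD _ (bc h5.1)).2 h7.symm
  · intro q hq
    have h5 := h4 hq.2
    have h6 := e.ri q h5.2
    refine ⟨e.g q, ⟨h5.1, (not_le.1 fun h7 => hq.1 ?_ : e.g q 2 < 0)⟩, h6⟩
    rw [← h6]; exact (iM _ (bc h5.1)).2 h7
  · intro q hq
    have h5 := h4 hq
    rw [← e.ri q h5.2, ← image_union]
    have h6 : e.g q ∈ closure (ball 0 r ∩ {z : V | 0 < z 2} ∪ ball 0 r ∩ {z : V | z 2 < 0}) := by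
      rw [← inter_union_distrib_left]
      refine isOpen_ball.inter_closure ⟨h5.1, ?_⟩
      have h7 : Dense ((fun z : V => z 2) ⁻¹' ({0}ᶜ)) :=
        (dense_compl_singleton (0 : ℝ)).preimage (isOpenMap_eval 2)
      refine closure_mono (fun z hz => ?_) (h7 _)
      exact (lt_or_gt_of_ne hz).symm
    exact ((e.pf.1 _ (bc h5.1)).mono fun z hz => bc (hz.elim And.left And.left)).mem_closure_image h6

namespace Tri

variable {ι : Type} [Fintype ι] {X : Set V} (T : Tri ι X)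

/-- the two points lie in the same open simplex -/
def Same (q q' : V) : Prop := q ∈ X ∧ q' ∈ X ∧ ∀ u, T.be u q = 0 ↔ T.be u q' = 0

variable {T}

theorem Same.symm {q q' : V} (h : T.Same q q') : T.Same q' q := ⟨h.2.1, h.1, fun u => (h.2.2 u).symm⟩

theorem Same.trans {q q' q'' : V} (h : T.Same q q') (h' : T.Same q' q'') : T.Same q q'' :=
  ⟨h.1, h'.2.1, fun u => (h.2.2 u).trans (h'.2.2 u)⟩

theorem Same.sub {A : Set V} (hA : T.Sub A) {q q' : V} (h : T.Same q q') : q ∈ A ↔ q' ∈ A :=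
  ⟨fun h1 => hA q h.1 q' h.2.1 h1 fun u => (h.2.2 u).1,
    fun h1 => hA q' h.2.1 q h.1 h1 fun u => (h.2.2 u).2⟩

variable (T)

/-- the ball of radius `δ` about `y` is small -/
def Sml (y : V) (δ : ℝ) : Prop :=
  ∀ q ∈ X, q ∈ ball y δ → ∀ w, 0 < T.be w y → T.be w y < 2 * T.be w q

theorem exists_sml {y : V} (hy : y ∈ X) : ∃ δ > 0, T.Sml y δ := by
  have h1 : ∀ᶠ q in 𝓝[X] y, ∀ w, 0 < T.be w y → T.be w y < 2 * T.be w q := by
    rw [eventually_all]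
    intro w
    by_cases hw : 0 < T.be w y
    · have h2 : Tendsto (fun q => 2 * T.be w q) (𝓝[X] y) (𝓝 (2 * T.be w y)) :=
        (T.cont w y hy).tendsto.const_mul 2
      exact (h2.eventually (lt_mem_nhds (by linarith))).mono fun q hq _ => hq
    · exact Eventually.of_forall fun q h => absurd h hw
  obtain ⟨δ, hδ, h2⟩ := Metric.mem_nhdsWithin_iff.1 h1
  exact ⟨δ, hδ, fun q hq hb => h2 ⟨hb, hq⟩⟩

variable {T}

theorem Sml.mono {y : V} {δ δ' : ℝ} (h : T.Sml y δ) (hd : δ' ≤ δ) : T.Sml y δ' :=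
  fun q hq hb => h q hq (ball_subset_ball hd hb)

theorem Sml.two {y q : V} {δ s : ℝ} (h : T.Sml y δ) (hy : y ∈ X) (hq : q ∈ X) (hb : q ∈ ball y δ)
    (s0 : 0 < s) (s2 : s ≤ 2) : T.Same q (y + s • (q - y)) := by
  have key : ∀ u, 0 < T.be u q → 0 < T.be u y + s * (T.be u q - T.be u y) := by
    intro u hu
    rcases (T.nn y hy u).eq_or_lt with h1 | h1
    · rw [← h1]; nlinarith
    · have := h q hq hb u h1
      nlinarith
  have hs : ∀ u, T.be u q = 0 → T.be u y = 0 := fun u hu => by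
    rcases (T.nn y hy u).eq_or_lt with h1 | h1
    · exact h1.symm
    · have := h q hq hb u h1
      linarith
  obtain ⟨h1, h2⟩ := T.line hy hq hs (s := s) fun u => by
    rcases (T.nn q hq u).eq_or_lt with h3 | h3
    · rw [← h3, hs u h3.symm]; simp
    · exact (key u h3).le
  refine ⟨hq, h1, fun u => ⟨fun h3 => by rw [h2, h3, hs u h3]; simp, fun h3 => ?_⟩⟩
  rcases (T.nn q hq u).eq_or_lt with h4 | h4
  · exact h4.symm
  · have := key u h4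
    rw [← h2, h3] at this
    exact absurd this (lt_irrefl _)

theorem Sml.scale {y q : V} {δ : ℝ} (h : T.Sml y δ) (hy : y ∈ X) (hq : q ∈ X) (hb : q ∈ ball y δ)
    {s : ℝ} (s0 : 0 < s) (hs : y + s • (q - y) ∈ ball y δ) : T.Same q (y + s • (q - y)) := by
  obtain ⟨n, hn⟩ := pow_unbounded_of_one_lt s (one_lt_two (α := ℝ))
  induction n generalizing s with
  | zero => exact h.two hy hq hb s0 (by simp at hn; linarith)
  | succ n ih =>
    have h1 : y + (s / 2) • (q - y) ∈ ball y δ := by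
      rw [mem_ball_iff_norm, add_sub_cancel_left, norm_smul, Real.norm_eq_abs] at hs ⊢
      rw [abs_of_pos s0] at hs
      rw [abs_of_pos (half_pos s0)]
      nlinarith [norm_nonneg (q - y)]
    have h2 := ih (half_pos s0) h1 (by rw [pow_succ] at hn; linarith)
    have h3 := h.two hy h2.2.1 h1 two_pos le_rfl
    rw [add_sub_cancel_left, smul_smul, show (2 : ℝ) * (s / 2) = s by ring] at h3
    exact h2.trans h3

theorem same_shear {q : V} (hq : q ∈ X) (u v : ι) {t : ℝ} (hu : |t| < T.be u q)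
    (hv : |t| < T.be v q) : T.Same q (q + t • (T.pt v - T.pt u)) := by
  classical
  obtain ⟨h1, h2⟩ := T.shear hq u v hu hv
  have a1 := abs_lt.1 hu
  have a2 := abs_lt.1 hv
  refine ⟨hq, h1, fun w => ?_⟩
  rw [h2]
  split_ifs with b1 b2 b2
  · simp
  · subst b1; constructor <;> intro <;> linarith
  · subst b2; constructor <;> intro <;> linarith
  · simp

end Tri

/-- the cone over `S` at `y` -/
def Kn (y : V) (δ : ℝ) (S : Set V) : Set V := {x | ∃ r : ℝ, 0 < r ∧ y + r • x ∈ S ∩ ball y δ}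

theorem exists_small (y x : V) {δ : ℝ} (hδ : 0 < δ) {η : ℝ} (hη : 0 < η) :
    ∃ r : ℝ, 0 < r ∧ r < η ∧ y + r • x ∈ ball y δ := by
  have h1 : Tendsto (fun r : ℝ => y + r • x) (𝓝[>] 0) (𝓝 y) := by
    have : Tendsto (fun r : ℝ => y + r • x) (𝓝 0) (𝓝 (y + (0 : ℝ) • x)) :=
      (continuous_const.add (continuous_id.smul continuous_const)).tendsto 0
    rw [zero_smul, add_zero] at this
    exact this.mono_left nhdsWithin_le_nhds
  obtain ⟨r, ⟨h2, h3⟩, h4⟩ := (((h1.eventually (ball_mem_nhds y hδ)).and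
    (mem_nhdsWithin_of_mem_nhds (Iio_mem_nhds hη))).and self_mem_nhdsWithin).exists
  exact ⟨r, h4, h3, h2⟩

theorem Kn.smul {y : V} {δ : ℝ} {S : Set V} {x : V} (h : x ∈ Kn y δ S) {s : ℝ} (hs : 0 < s) :
    s • x ∈ Kn y δ S := by
  obtain ⟨r, hr, h⟩ := h
  exact ⟨r / s, div_pos hr hs, by rwa [smul_smul, div_mul_cancel₀ _ hs.ne']⟩

theorem Kn.isOpen {y : V} {δ : ℝ} {S : Set V} (h : IsOpen (S ∩ ball y δ)) : IsOpen (Kn y δ S) := by
  have : Kn y δ S = ⋃ r : ℝ, ⋃ _ : 0 < r, (fun x => y + r • x) ⁻¹' (S ∩ ball y δ) := by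
    ext x; simp only [Kn, mem_ofPred_eq, mem_iUnion, mem_preimage, exists_prop]
  rw [this]
  exact isOpen_iUnion fun r => isOpen_iUnion fun _ =>
    h.preimage (by fun_prop)

section

variable {ι : Type} [Fintype ι] {X : Set V} {T : Tri ι X} {y : V} {δ : ℝ} {S : Set V}

/-- union of open simplices, or of the complement and open simplices -/
def Sat (T : Tri ι X) (S : Set V) : Prop :=
  (∀ q q', T.Same q q' → q ∈ S → q' ∈ S) ∧ (S ⊆ X ∨ Xᶜ ⊆ S)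

theorem Kn_iff (h : T.Sml y δ) (hy : y ∈ X) (hS : Sat T S) {x : V} {r : ℝ} (hr : 0 < r)
    (hb : y + r • x ∈ ball y δ) : x ∈ Kn y δ S ↔ y + r • x ∈ S := by
  refine ⟨?_, fun h1 => ⟨r, hr, h1, hb⟩⟩
  rintro ⟨r', hr', h1, h2⟩
  have e : ∀ a b : ℝ, 0 < b → y + (a / b) • (y + b • x - y) = y + a • x := fun a b hb => by
    rw [add_sub_cancel_left, smul_smul, div_mul_cancel₀ _ hb.ne']
  by_cases h3 : y + r' • x ∈ X
  · have := h.scale hy h3 h2 (div_pos hr hr') (by rwa [e r r' hr'])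
    rw [e r r' hr'] at this
    exact hS.1 _ _ this h1
  · by_cases h4 : y + r • x ∈ X
    · have := h.scale hy h4 hb (div_pos hr' hr) (by rwa [e r' r hr])
      rw [e r' r hr] at this
      exact absurd this.2.1 h3
    · rcases hS.2 with h5 | h5
      · exact absurd (h5 h1) h3
      · exact h5 h4

theorem Kn_shear (h : T.Sml y δ) (hδ : 0 < δ) (hy : y ∈ X) (hS : Sat T S) (hX : S ⊆ X) {u v : ι}
    (hu : 0 < T.be u y) (hv : 0 < T.be v y) {x : V} (hx : x ∈ Kn y δ S) (t : ℝ) :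
    x + t • (T.pt v - T.pt u) ∈ Kn y δ S := by
  have p1 : 0 < |t| + 1 := by positivity
  obtain ⟨r, hr, h1, h2⟩ := exists_small y x hδ
    (η := min (T.be u y) (T.be v y) / 2 / (|t| + 1)) (by positivity)
  obtain ⟨r', hr', h1', h2'⟩ := exists_small y (x + t • (T.pt v - T.pt u)) hδ hr
  have h3 : y + r' • x ∈ ball y δ := by
    rw [mem_ball_iff_norm, add_sub_cancel_left, norm_smul, Real.norm_eq_abs] at h2 ⊢
    rw [abs_of_pos hr] at h2
    rw [abs_of_pos hr']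
    nlinarith [norm_nonneg x]
  have h4 := (Kn_iff h hy hS hr' h3).1 hx
  have h5 : |r' * t| < min (T.be u y) (T.be v y) / 2 := by
    rw [abs_mul, abs_of_pos hr']
    have := (lt_div_iff₀ p1).1 (h1'.trans h1)
    nlinarith
  have h6 := h _ (hX h4) h3 u hu
  have h7 := h _ (hX h4) h3 v hv
  have h8 := Tri.same_shear (T := T) (hX h4) u v (t := r' * t)
    (by linarith [min_le_left (T.be u y) (T.be v y)])
    (by linarith [min_le_right (T.be u y) (T.be v y)])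
  refine ⟨r', hr', ?_, h2'⟩
  rw [smul_add, smul_smul, ← add_assoc]
  exact hS.1 _ _ h8 h4

end

section

variable {ι : Type} [Fintype ι] {X : Set V} {T : Tri ι X} {y : V} {δ : ℝ}

theorem sat_X : Sat T X := ⟨fun _ _ h _ => h.2.1, Or.inl subset_rfl⟩

theorem sat_c : Sat T Xᶜ := ⟨fun _ _ h h1 => absurd h.1 h1, Or.inr subset_rfl⟩

theorem sat_d {A : Set V} (hA : T.Sub A) : Sat T (X \ A) :=
  ⟨fun _ _ h h1 => ⟨h.2.1, fun h2 => h1.2 ((h.sub hA).2 h2)⟩, Or.inl sdiff_subset⟩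

theorem Kn_c (h : T.Sml y δ) (hδ : 0 < δ) (hy : y ∈ X) {x : V} :
    x ∈ Kn y δ Xᶜ ↔ x ∉ Kn y δ X := by
  obtain ⟨r, hr, -, hb⟩ := exists_small y x hδ one_pos
  rw [Kn_iff h hy sat_c hr hb, Kn_iff h hy sat_X hr hb]; rfl

theorem Kn_shear_c (h : T.Sml y δ) (hδ : 0 < δ) (hy : y ∈ X) {u v : ι}
    (hu : 0 < T.be u y) (hv : 0 < T.be v y) {x : V} (hx : x ∈ Kn y δ Xᶜ) (t : ℝ) :
    x + t • (T.pt v - T.pt u) ∈ Kn y δ Xᶜ := by
  rw [Kn_c h hδ hy] at hx ⊢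
  intro h1
  have := Kn_shear h hδ hy sat_X subset_rfl hu hv h1 (-t)
  rw [neg_smul, add_neg_cancel_right] at this
  exact hx this

/-- a shear invariant cone over a half box has a connected transversal slice -/
theorem slice_conn (Λ : V ≃L[ℝ] ℝ × ℂ) {d : V} (hd : Λ d = (1, 0)) {S N : Set V} {ρ : ℝ}
    (hρ : 0 < ρ) (hρδ : ρ ≤ δ) (h : T.Sml y δ) (hy : y ∈ X) (hS : Sat T S)
    (sh : ∀ x ∈ Kn y δ S, ∀ t : ℝ, x + t • d ∈ Kn y δ S) (hN : N ⊆ S ∩ ball y δ)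
    (hN' : S ∩ ball y ρ ⊆ N) :
    {z | Λ.symm (0, z) ∈ Kn y δ S} =
      (fun p : ℝ × V => p.1 • (Λ (p.2 - y)).2) '' (Ioi 0 ×ˢ N) := by
  have pr : ∀ x : V, Λ.symm (0, (Λ x).2) = x + (-(Λ x).1) • d := fun x => by
    apply Λ.injective
    rw [Λ.apply_symm_apply, map_add, map_smul, hd]
    ext <;> simp
  ext z
  constructor
  · intro hz
    obtain ⟨r, hr, -, hb⟩ := exists_small y (Λ.symm (0, z)) hρ one_pos
    have h1 := (Kn_iff h hy hS hr (ball_subset_ball hρδ hb)).1 hz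
    refine ⟨(r⁻¹, _), ⟨inv_pos.2 hr, hN' ⟨h1, hb⟩⟩, ?_⟩
    simp [hr.ne']
  · rintro ⟨⟨r, q⟩, ⟨hr, hq⟩, rfl⟩
    have h1 : q - y ∈ Kn y δ S := ⟨1, one_pos, by simpa using hN hq⟩
    have h2 := Kn.smul (sh _ h1 (-(Λ (q - y)).1)) hr
    rw [← pr, ← map_smul] at h2
    simpa using h2

/-- the transversal structure at a boundary point -/
theorem trans_bd {M dM : Set V} (hM : Mf M dM) (hX : X ⊆ M) (hs : T.Sub dM) (hy : y ∈ X)
    (hd : y ∈ dM) (hδ : 0 < δ) (h : T.Sml y δ) (hb : M ∩ ball y δ ⊆ X) {u v : ι}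
    (hu : 0 < T.be u y) (hv : 0 < T.be v y) (Λ : V ≃L[ℝ] ℝ × ℂ)
    (hΛ : Λ (T.pt v - T.pt u) = (1, 0)) :
    ∃ θ θ', PH θ θ' ∧ ∀ q ∈ ball y δ, (q ∈ X ↔ 0 ≤ (θ (Λ (q - y)).2).2) ∧
      (q ∈ dM ↔ (θ (Λ (q - y)).2).2 = 0) := by
  obtain ⟨N1, N2, ρ', hρ', c1, c2, n1, n2, s1, s2, t1, t2, den⟩ := mf_boxes hM hd hδ
  set ρ := min ρ' δ with hρ
  have ρ0 : 0 < ρ := lt_min hρ' hδ
  have b1 : ball y ρ ⊆ ball y ρ' := ball_subset_ball (min_le_left _ _)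
  have e1 : (X \ dM) ∩ ball y δ = (M \ dM) ∩ ball y δ := by
    ext q
    exact ⟨fun h1 => ⟨⟨hX h1.1.1, h1.1.2⟩, h1.2⟩, fun h1 => ⟨⟨hb ⟨h1.1.1, h1.2⟩, h1.1.2⟩, h1.2⟩⟩
  have sh1 := fun x hx t => Kn_shear h hδ hy (sat_d hs) sdiff_subset hu hv (x := x) hx t
  have sh2 := fun x hx t => Kn_shear_c h hδ hy hu hv (x := x) hx t
  have E1 := slice_conn Λ hΛ (N := N1) ρ0 (min_le_right _ _) h hy (sat_d hs) sh1 (e1 ▸ s1)
    fun q hq => t1 ⟨⟨hX hq.1.1, hq.1.2⟩, b1 hq.2⟩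
  have E2 := slice_conn Λ hΛ (N := N2) ρ0 (min_le_right _ _) h hy sat_c sh2
    (fun q hq => ⟨fun h1 => (s2 hq).1 (hX h1), (s2 hq).2⟩)
    fun q hq => t2 ⟨fun h1 => hq.1 (hb ⟨h1, ball_subset_ball (min_le_right _ _) hq.2⟩), b1 hq.2⟩
  have cL : Continuous fun z : ℂ => Λ.symm (0, z) := by fun_prop
  have cP : Continuous fun p : ℝ × V => p.1 • (Λ (p.2 - y)).2 := by fun_prop
  have sm : ∀ (z : ℂ) (r : ℝ), Λ.symm (0, r • z) = r • Λ.symm (0, z) := fun z r => by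
    rw [← map_smul]; simp
  have hC : Cones {z | Λ.symm (0, z) ∈ Kn y δ (X \ dM)} {z | Λ.symm (0, z) ∈ Kn y δ Xᶜ} := by
    refine ⟨(Kn.isOpen (e1 ▸ hM.2.1.inter isOpen_ball)).preimage cL,
      (Kn.isOpen (T.cpt.isClosed.isOpen_compl.inter isOpen_ball)).preimage cL,
      E1 ▸ (isPreconnected_Ioi.prod c1).image _ cP.continuousOn,
      E2 ▸ (isPreconnected_Ioi.prod c2).image _ cP.continuousOn,
      E1 ▸ (nonempty_Ioi.prod n1).image _, E2 ▸ (nonempty_Ioi.prod n2).image _,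
      disjoint_left.2 fun z h1 h2 => (Kn_c h hδ hy).1 h2 ?_,
      fun z hz r hr => ?_, fun z hz r hr => ?_, fun z => ?_⟩
    · obtain ⟨r, hr, h3⟩ := h1
      exact ⟨r, hr, h3.1.1, h3.2⟩
    · show Λ.symm (0, r • z) ∈ Kn y δ (X \ dM)
      rw [sm]; exact Kn.smul hz hr
    · show Λ.symm (0, r • z) ∈ Kn y δ Xᶜ
      rw [sm]; exact Kn.smul hz hr
    · obtain ⟨r, hr, -, h1⟩ := exists_small y (Λ.symm (0, z)) hρ' one_pos
      have h2 := map_mem_closure (f := fun q : V => r⁻¹ • (Λ (q - y)).2) (by fun_prop) (den h1)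
        (t := {z | Λ.symm (0, z) ∈ Kn y δ (X \ dM)} ∪ {z | Λ.symm (0, z) ∈ Kn y δ Xᶜ}) (by
          rw [E1, E2]
          rintro q (hq | hq)
          · exact Or.inl ⟨(r⁻¹, q), ⟨inv_pos.2 hr, hq⟩, rfl⟩
          · exact Or.inr ⟨(r⁻¹, q), ⟨inv_pos.2 hr, hq⟩, rfl⟩)
      simpa [smul_smul, hr.ne'] using h2
  obtain ⟨θ, θ', hθ, i1, i2⟩ := hC.plane
  refine ⟨θ, θ', hθ, fun q hq => ?_⟩
  have pr : Λ.symm (0, (Λ (q - y)).2) = (q - y) + (-(Λ (q - y)).1) • (T.pt v - T.pt u) := by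
    apply Λ.injective
    rw [Λ.apply_symm_apply, map_add, map_smul, hΛ]
    ext <;> simp
  have key : ∀ S, Sat T S → (∀ x ∈ Kn y δ S, ∀ t : ℝ, x + t • (T.pt v - T.pt u) ∈ Kn y δ S) →
      (Λ.symm (0, (Λ (q - y)).2) ∈ Kn y δ S ↔ q ∈ S) := fun S hS sh => by
    have h1 := Kn_iff h hy hS (x := q - y) one_pos (by simpa using hq)
    rw [one_smul, add_sub_cancel] at h1
    rw [← h1, pr]
    refine ⟨fun h2 => ?_, fun h2 => sh _ h2 _⟩
    have := sh _ h2 (Λ (q - y)).1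
    rwa [neg_smul, neg_add_cancel_right] at this
  have j1 := (i1 _).symm.trans (key _ (sat_d hs) sh1)
  have j2 := (i2 _).symm.trans (key _ sat_c sh2)
  refine ⟨by rw [← not_lt, j2]; simp, fun h1 => ?_, fun h1 => ?_⟩
  · exact le_antisymm (not_lt.1 fun h2 => (j1.1 h2).2 h1)
      (not_lt.1 fun h2 => j2.1 h2 (hb ⟨hM.1 h1, hq⟩))
  · by_contra h2
    by_cases h3 : q ∈ X
    · exact (j1.2 ⟨h3, h2⟩).ne' h1
    · exact (j2.2 h3).ne h1

end

end Crest.Agent.X212.Tw9
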