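import Crest.Agent.X212.Tw9.Lev
import Crest.Agent.R096.Cx3_609

/-!
# X212 / T layer, tower (helper9): morphisms of levels, double covers, sublevels
-/

set_option autoImplicit false
set_option linter.unusedSectionVars false

open Set Metric Topology Filter

namespace Crest.Agent.X212.Tw9

open Crest.Agent.R096.Ce_537
open Crest.Agent.X212.Prd34 (V P up fl Mf)
open Crest.Agent.X212.Lev33 (Coc Prim LCo)
open Crest.Agent.X212.Dsc4
open Crest.Agent.X212.Lad50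

/-- the image of an essential disc -/
theorem ess_map {E E' : Type} [NormedAddCommGroup E] [NormedSpace ℝ E] [FiniteDimensional ℝ E]
    [NormedAddCommGroup E'] [NormedSpace ℝ E'] [FiniteDimensional ℝ E'] {Γ : Type} [Group Γ]
    {W dW G D : Set E} {W' dW' G' : Set E'} {c : E → E → Γ} {c' : E' → E' → Γ} {Φ : E → E'}
    (h : Ess W dW G c D) (pl : PLOn Φ W) (mw : MapsTo Φ W W') (inj : InjOn Φ D)
    (bd : ∀ p ∈ D, p ∈ dW ↔ Φ p ∈ dW') (mg : MapsTo Φ G G')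
    (hc : ∀ p ∈ G, ∀ q ∈ G, c p q = c' (Φ p) (Φ q)) : Ess W' dW' G' c' (Φ '' D) := by
  obtain ⟨h1, h2, h3, h4⟩ := h
  have e : Φ '' D ∩ dW' = Φ '' (D ∩ dW) := by
    apply Subset.antisymm
    · rintro _ ⟨⟨p, hp, rfl⟩, h5⟩
      exact ⟨p, ⟨hp, (bd p hp).2 h5⟩, rfl⟩
    · rintro _ ⟨p, hp, rfl⟩
      exact ⟨⟨p, hp.1, rfl⟩, (bd p hp.1).1 hp.2⟩
  refine ⟨e ▸ h1.image_injOn (pl.mono h2) inj, (mw.mono_left h2).image_subset,
    e ▸ (mg.mono_left h3).image_subset, fun ⟨b, hb⟩ => h4 ⟨fun p => b (Φ p), ?_⟩⟩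
  rw [e] at hb
  refine (hb.comp (pl.1.mono fun p hp => h2 hp.1) (mapsTo_image _ _)).congr fun p hp => ?_
  filter_upwards [self_mem_nhdsWithin] with q hq
  exact (hc p (h3 hp) q (h3 hq)).symm

variable {ι : Type} [Fintype ι] {X : Set V} {T : Tri ι X}

namespace Lv

variable {κ κ' : Type} {L : Lv T κ} {L' : Lv T κ'}

/-- a simplicial map over `X` -/
structure Hom (L : Lv T κ) (L' : Lv T κ') (φ : κ → κ') : Prop where
  a : ∀ v, L'.a (φ v) = L.a v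
  N : ∀ {v w}, L.N v w → L'.N (φ v) (φ w)

open Classical in
/-- the induced map -/
noncomputable def mp (L' : Lv T κ') (φ : κ → κ') (p : V × (κ → ℝ)) : V × (κ' → ℝ) :=
  if h : ∃ v, 0 < p.2 v then L'.s (φ h.choose) p.1 else (p.1, 0)

theorem mp_fst (L' : Lv T κ') (φ : κ → κ') (p : V × (κ → ℝ)) : (L'.mp φ p).1 = p.1 := by
  unfold mp; split_ifs <;> rfl

variable [Fintype κ] [Fintype κ'] {φ : κ → κ'}

theorem Hom.eq (h : Hom L L' φ) {p : V × (κ → ℝ)} (hp : p ∈ L.W) {v : κ} (hv : 0 < p.2 v) :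
    L'.mp φ p = L'.s (φ v) p.1 := by
  have h1 : ∃ v, 0 < p.2 v := ⟨v, hv⟩
  rw [mp, dif_pos h1]
  exact s_eq (h.N (W_N hp h1.choose_spec hv)) hp.1 (h.a _ ▸ (W_eq hp h1.choose_spec).1)
    (h.a _ ▸ (W_eq hp hv).1)

theorem Hom.pos (h : Hom L L' φ) {p : V × (κ → ℝ)} (hp : p ∈ L.W) {v : κ} (hv : 0 < p.2 v) :
    0 < (L'.mp φ p).2 (φ v) := by
  rw [h.eq hp hv, s_of (L'.rf _), h.a]; exact (W_eq hp hv).1

theorem Hom.pl (h : Hom L L' φ) : PLOn (L'.mp φ) L.W :=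
  L.pl_of fun v => ((L'.s_pl (φ v)).comp (pl_fst (plOn_id _)) fun _ hp => hp.1.1).congr
    fun _ hp => h.eq hp.1 hp.2

theorem Hom.sg_le (h : Hom L L' φ) {p : V × (κ → ℝ)} (hp : p ∈ L.W) : sg p ≤ sg (L'.mp φ p) := by
  obtain ⟨v, hv⟩ := W_ex hp
  rw [h.eq hp hv, sg_s]
  conv_lhs => rw [(W_eq hp hv).2, sg_s]
  refine Finset.sum_le_sum_of_subset_of_nonneg (fun u hu => ?_) fun u _ _ => T.nn _ hp.1 u
  obtain ⟨w, h1, rfl⟩ := L.mem_A.1 hu
  exact L'.mem_A.2 ⟨φ w, h.N h1, h.a w⟩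

theorem Hom.maps (h : Hom L L' φ) : MapsTo (L'.mp φ) L.W L'.W := fun p hp => by
  obtain ⟨v, hv⟩ := W_ex hp
  refine ⟨by rw [mp_fst]; exact hp.1, hp.2.1.trans (h.sg_le hp), φ v, ?_, ?_⟩
  · rw [mp_fst, h.a]; exact (W_eq hp hv).1
  · rw [mp_fst]; exact h.eq hp hv

theorem Hom.mapsG (h : Hom L L' φ) (F : Set V) : MapsTo (L'.mp φ) (L.G F) (L'.G F) := fun p hp =>
  ⟨h.maps hp.1, by rw [mp_fst]; exact hp.2.1, hp.2.2.trans_le (h.sg_le hp.1)⟩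

theorem Hom.N_of (h : Hom L L' φ) {p q : V × (κ → ℝ)} (hp : p ∈ L.W) (hq : q ∈ L.W)
    (e : L'.mp φ p = L'.mp φ q) {v w : κ} (hv : 0 < p.2 v) (hw : 0 < q.2 w) :
    p.1 = q.1 ∧ L'.N (φ v) (φ w) :=
  ⟨by rw [← mp_fst L' φ p, e, mp_fst], W_N (h.maps hp) (h.pos hp hv) (e ▸ h.pos hq hw)⟩

theorem eq_of_N {p q : V × (κ → ℝ)} (hp : p ∈ L.W) (hq : q ∈ L.W) (e : p.1 = q.1) {v w : κ}
    (hv : 0 < p.2 v) (hw : 0 < q.2 w) (n : L.N v w) : p = q := by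
  rw [(W_eq hp hv).2, (W_eq hq hw).2, ← e]
  exact s_eq n hp.1 (W_eq hp hv).1 (e ▸ (W_eq hq hw).1)

theorem ess_sg {Γ : Type} [Group Γ] {dM F : Set V} {c : V × (κ → ℝ) → V × (κ → ℝ) → Γ}
    {D : Set (V × (κ → ℝ))} (hD : Ess L.W (L.dW dM) (L.G F) c D) {p : V × (κ → ℝ)} (hp : p ∈ D) :
    1 / 2 < sg p ∧ (p ∈ L.dW dM ↔ p.1 ∈ dM) := by
  have h1 := hD.2.1 hp
  have h2 : 1 / 2 < sg p := lt_of_le_of_ne h1.2.1 fun e =>
    (hD.2.2.1 ⟨hp, h1, Or.inl e.symm⟩).2.2.ne e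
  exact ⟨h2, fun a => a.2.resolve_left h2.ne', fun a => ⟨h1, Or.inr a⟩⟩

theorem Hom.ess (h : Hom L L' φ) {Γ : Type} [Group Γ] {dM F : Set V} {c : V → V → Γ}
    {D : Set (V × (κ → ℝ))} (hD : Ess L.W (L.dW dM) (L.G F) (fun p q => c p.1 q.1) D)
    (inj : InjOn (L'.mp φ) D) :
    Ess L'.W (L'.dW dM) (L'.G F) (fun p q => c p.1 q.1) (L'.mp φ '' D) := by
  refine ess_map hD h.pl h.maps inj (fun p hp => ?_) (h.mapsG F) fun p _ q _ => by
    simp only [mp_fst]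
  obtain ⟨h1, h2⟩ := ess_sg hD hp
  have h3 := hD.2.1 hp
  rw [h2, ← mp_fst L' φ p]
  exact ⟨fun a => ⟨h.maps h3, Or.inr a⟩,
    fun a => a.2.resolve_left (h1.trans_le (h.sg_le h3)).ne'⟩

/-- a fixed point free involution of the level -/
theorem Hom.inv {t : κ → κ} (h : Hom L L t) (h2 : ∀ v, t (t v) = v) (hf : ∀ v, ¬ L.N v (t v))
    {Γ : Type} [Group Γ] (dM F : Set V) (c : V → V → Γ) :
    Inv L.W (L.dW dM) (L.G F) (fun p q => c p.1 q.1) (L.mp t) := by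
  have i1 : ∀ p ∈ L.W, L.mp t (L.mp t p) = p := fun p hp => by
    obtain ⟨v, hv⟩ := W_ex hp
    rw [h.eq (h.maps hp) (h.pos hp hv), h2, mp_fst]; exact (W_eq hp hv).2.symm
  refine ⟨h.pl, h.maps, i1, fun p hp e => ?_, fun p hp => ⟨h.maps hp.1, ?_⟩, h.mapsG F,
    fun p _ q _ => by simp only [mp_fst]⟩
  · obtain ⟨v, hv⟩ := W_ex hp
    exact hf v (W_N hp hv (e ▸ h.pos hp hv))
  · rw [mp_fst]
    refine hp.2.imp_left fun a => le_antisymm ?_ (h.maps hp.1).2.1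
    have := h.sg_le (h.maps hp.1)
    rwa [i1 p hp.1, a] at this

/-- the full sublevel on a set of vertices -/
def sub (L : Lv T κ) (K : κ → Prop) : Lv T {v // K v} where
  a v := L.a v
  N v w := L.N v w
  rf v := L.rf v
  sym h := L.sym h
  inj h h' e := Subtype.ext (L.inj h h' e)
  full h h' h3 := L.full h h' h3
  edge h := L.edge h

theorem sub_hom (L : Lv T κ) (K : κ → Prop) : Hom (L.sub K) L Subtype.val :=
  ⟨fun _ => rfl, fun h => h⟩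

theorem sub_inj (L : Lv T κ) (K : κ → Prop) [Fintype {v // K v}] :
    InjOn (L.mp (Subtype.val : {v // K v} → κ)) (L.sub K).W := fun p hp q hq e => by
  obtain ⟨v, hv⟩ := W_ex hp
  obtain ⟨w, hw⟩ := W_ex hq
  obtain ⟨h1, h2⟩ := (L.sub_hom K).N_of hp hq e hv hw
  exact eq_of_N hp hq h1 hv hw h2

variable {ω : κ → κ → ZMod 2}

theorem Cy.self (h : L.Cy ω) (v : κ) : ω v v = 0 := by
  have := h v v v (L.rf v) (L.rf v) (L.edge (L.rf v))
  linear_combination this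

theorem Cy.symm (h : L.Cy ω) {v w : κ} (n : L.N v w) : ω w v = ω v w := by
  obtain ⟨y, hy, h1, h2, -⟩ := L.edge n
  have h3 := h v w v n (L.rf v) ⟨y, hy, h1, h2, h1⟩
  rw [h.self] at h3
  have h4 := CharTwo.add_self_eq_zero (ω v w)
  linear_combination h3 - h4

/-- the double cover -/
def cov (h : L.Cy ω) : Lv T (κ × ZMod 2) where
  a v := L.a v.1
  N v w := L.N v.1 w.1 ∧ v.2 + w.2 = ω v.1 w.1
  rf v := ⟨L.rf _, by rw [h.self, CharTwo.add_self_eq_zero]⟩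
  sym n := ⟨L.sym n.1, by rw [add_comm, n.2, h.symm n.1]⟩
  inj n n' e := by
    have h1 := L.inj n.1 n'.1 e
    refine Prod.ext h1 ?_
    have h2 := n.2
    rw [h1, ← n'.2] at h2
    exact add_left_cancel h2
  full {v w w'} n n' h3 := ⟨L.full n.1 n'.1 h3, by
    have h1 := h _ _ _ n.1 n'.1 h3
    have h2 := CharTwo.add_self_eq_zero (ω v.1 w.1)
    have h4 := CharTwo.add_self_eq_zero v.2
    linear_combination n.2 + n'.2 - h1 + h2 - h4⟩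
  edge n := L.edge n.1

theorem cov_hom (h : L.Cy ω) : Hom (cov h) L Prod.fst := ⟨fun _ => rfl, fun n => n.1⟩

theorem cov_swap (h : L.Cy ω) : Hom (cov h) (cov h) fun v => (v.1, v.2 + 1) :=
  ⟨fun _ => rfl, fun {v w} n => ⟨n.1, by
    have h1 := CharTwo.add_self_eq_zero (1 : ZMod 2)
    have h2 : v.2 + w.2 = ω v.1 w.1 := n.2
    show v.2 + 1 + (w.2 + 1) = ω v.1 w.1
    linear_combination h2 + h1⟩⟩

theorem cov_inv (h : L.Cy ω) {Γ : Type} [Group Γ] (dM F : Set V) (c : V → V → Γ) :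
    Inv (cov h).W ((cov h).dW dM) ((cov h).G F) (fun p q => c p.1 q.1)
      ((cov h).mp fun v : κ × ZMod 2 => (v.1, v.2 + 1)) := by
  refine (cov_swap h).inv (fun v => Prod.ext rfl ?_) (fun v n => ?_) dM F c
  · show v.2 + 1 + 1 = v.2
    rw [add_assoc, CharTwo.add_self_eq_zero, add_zero]
  · have h2 : v.2 + (v.2 + 1) = ω v.1 v.1 := n.2
    rw [h.self, ← add_assoc, CharTwo.add_self_eq_zero, zero_add] at h2
    exact one_ne_zero h2

theorem cov_fib (h : L.Cy ω) {p q : V × (κ × ZMod 2 → ℝ)} (hp : p ∈ (cov h).W) (hq : q ∈ (cov h).W)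
    (e : L.mp Prod.fst p = L.mp Prod.fst q) :
    p = q ∨ p = (cov h).mp (fun v : κ × ZMod 2 => (v.1, v.2 + 1)) q := by
  obtain ⟨v, hv⟩ := W_ex hp
  obtain ⟨w, hw⟩ := W_ex hq
  obtain ⟨h1, h2⟩ := (cov_hom h).N_of hp hq e hv hw
  have h3 : ∀ a b : ZMod 2, a = b ∨ a + 1 = b := by decide
  rcases h3 (v.2 + w.2) (ω v.1 w.1) with h4 | h4
  · exact Or.inl (eq_of_N hp hq h1 hv hw ⟨h2, h4⟩)
  · exact Or.inr (eq_of_N hp ((cov_swap h).maps hq) (by rw [mp_fst, h1]) hv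
      ((cov_swap h).pos hq hw) ⟨h2, by rw [← h4, add_assoc]⟩)

/-- **descent by one level** -/
theorem cov_desc (hd : Desc) (h : L.Cy ω) {Γ : Type} [Group Γ] {M dM F : Set V} {c : V → V → Γ}
    (hM : Mf M dM) (hX : X ⊆ M) (hs : T.Sub dM) (hg : ∀ v, T.Good M (L.a v)) (hF : ROpen dM F)
    (hc : Coc F c) (K : κ × ZMod 2 → Prop) [Fintype {v // K v}]
    (hD : ∃ D, Ess ((cov h).sub K).W (((cov h).sub K).dW dM) (((cov h).sub K).G F)
      (fun p q => c p.1 q.1) D) :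
    ∃ D, Ess L.W (L.dW dM) (L.G F) (fun p q => c p.1 q.1) D := by
  obtain ⟨D, hD⟩ := hD
  obtain ⟨D', h1, h2⟩ := hd _ Γ _ _ _ _ _ _ ((cov h).mfE hM hX hs fun v => hg v.1)
    ((cov h).ropen hF) ((cov h).coc hc) (cov_inv h dM F c)
    (((cov h).sub_hom K).ess hD (((cov h).sub_inj K).mono hD.2.1))
  refine ⟨_, (cov_hom h).ess h1 fun p hp q hq e => ?_⟩
  rcases cov_fib h (h1.2.1 hp) (h1.2.1 hq) e with h3 | h3
  · exact h3
  · exact (disjoint_left.1 h2 hp ⟨q, hq, h3.symm⟩).elim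

end Lv

end Crest.Agent.X212.Tw9
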