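import Crest.Agent.X212.Dsc4.Defs

/-!
# X212 / T layer, loop theorem (road A): triangulations by barycentric coordinates, the Props of
the tower (helper9).  Definitions and Props only.
-/

set_option autoImplicit false

open Set Metric Topology

namespace Crest.Agent.X212.Tw9

open Crest.Agent.R096.Ce_537
open Crest.Agent.X212.Prd34 (V P up fl Mf)
open Crest.Agent.X212.Lev33 (Coc Prim)
open Crest.Agent.X212.Dsc4

/-- a finite geometric simplicial complex with carrier `X`, given by its vertices `pt` and its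
barycentric coordinates `be` -/
structure Tri {E : Type} [NormedAddCommGroup E] [NormedSpace ℝ E] (ι : Type) [Fintype ι]
    (X : Set E) where
  /-- vertices -/
  pt : ι → E
  /-- barycentric coordinates -/
  be : ι → E → ℝ
  cpt : IsCompact X
  pl : ∀ u, PLOn (be u) X
  nn : ∀ y ∈ X, ∀ u, 0 ≤ be u y
  sum : ∀ y ∈ X, ∑ u, be u y = 1
  rep : ∀ y ∈ X, ∑ u, be u y • pt u = y
  face : ∀ y ∈ X, ∀ w : ι → ℝ, (∀ u, 0 ≤ w u) → ∑ u, w u = 1 → (∀ u, be u y = 0 → w u = 0) →
    ∑ u, w u • pt u ∈ X ∧ ∀ u', be u' (∑ u, w u • pt u) = w u'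

/-- `A ∩ X` is a subcomplex -/
def Tri.Sub {E : Type} [NormedAddCommGroup E] [NormedSpace ℝ E] {ι : Type} [Fintype ι]
    {X : Set E} (T : Tri ι X) (A : Set E) : Prop :=
  ∀ y ∈ X, ∀ y' ∈ X, y ∈ A → (∀ u, T.be u y = 0 → T.be u y' = 0) → y' ∈ A

/-- the open star of `u` lies in the interior of `X` relative to `M` -/
def Tri.Good {E : Type} [NormedAddCommGroup E] [NormedSpace ℝ E] {ι : Type} [Fintype ι]
    {X : Set E} (T : Tri ι X) (M : Set E) (u : ι) : Prop :=
  ∀ y ∈ X, 0 < T.be u y → X ∈ 𝓝[M] y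

/-- **(SIMP)** triangulation of a neighbourhood of a compact set -/
def SimpStmt : Prop := ∀ (M dM C : Set V), Mf M dM → IsCompact C → C ⊆ M →
  ∃ (ι : Type) (_ : Fintype ι) (X : Set V) (T : Tri ι X), C ⊆ X ∧ X ⊆ M ∧ T.Sub dM ∧
    ∀ u, (∃ x ∈ C, 0 < T.be u x) → T.Good M u

/-- no connected double cover: every `ℤ/2` germ cocycle has a primitive -/
def H1c {E : Type} [TopologicalSpace E] (W : Set E) : Prop :=
  ∀ d : E → E → Multiplicative (ZMod 2), Coc W d → ∃ b, Prim W d b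

/-- **(TOP)** the top of the tower -/
def TopStmt : Prop := ∀ (E : Type) [NormedAddCommGroup E] [NormedSpace ℝ E] [FiniteDimensional ℝ E]
  (Γ : Type) [Group Γ] (W dW G : Set E) (c : E → E → Γ), IsCompact W → MfE W dW → H1c W →
  ROpen dW G → Coc G c → (¬ ∃ b, Prim G c b) → ∃ D, Ess W dW G c D

/-- **(LT)** the loop theorem, cocycle form -/
def LTc : Prop := ∀ (Γ : Type) [Group Γ] (M dM F : Set V) (c : V → V → Γ) (f : P → V),
  Mf M dM → ROpen dM F → Coc F c → ContinuousOn f (cube 2) → MapsTo f (cube 2) M →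
  MapsTo f (sph 2) F → (¬ ∃ b, Prim (sph 2) (fun x y => c (f x) (f y)) b) →
  ∃ D, Ess M dM F c D

end Crest.Agent.X212.Tw9
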