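import Crest.Agent.X212.Tw9.Cone

/-!
# X212 / T layer, tower (helper9): the derived neighbourhood `μ ≥ 1/2` is a manifold
-/

set_option autoImplicit false

open Set Metric Topology Filter

namespace Crest.Agent.X212.Tw9

open Crest.Agent.R096.Ce_537
open Crest.Agent.X212.Prd34 (V P up fl Mf)
open Crest.Agent.X212.Dsc4
open Crest.Agent.X212.Lad50

/-- an unfolding of `H × [0,∞)` onto the half space -/
structure Fold (H dH : Set (ℝ × ℝ)) (fo : (ℝ × ℝ) × ℝ → V) (fo' : V → (ℝ × ℝ) × ℝ) : Prop where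
  pl : PLOn fo univ
  pl' : PLOn fo' univ
  li : ∀ p, p.1 ∈ H → 0 ≤ p.2 → fo' (fo p) = p
  ri : ∀ x ∈ up, fo (fo' x) = x
  mf : ∀ p, p.1 ∈ H → 0 ≤ p.2 → fo p ∈ up
  mg : ∀ x ∈ up, (fo' x).1 ∈ H ∧ 0 ≤ (fo' x).2
  bd : ∀ p, p.1 ∈ H → 0 ≤ p.2 → (fo p 2 = 0 ↔ p.2 = 0 ∨ p.1 ∈ dH)

theorem fold_int : Fold univ ∅ (fun p => ![p.1.1, p.1.2, p.2]) (fun x => ((x 0, x 1), x 2)) where
  pl := pl_vec3 (pl_fst (pl_fst (plOn_id _))) (pl_snd (pl_fst (plOn_id _))) (pl_snd (plOn_id _))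
  pl' := pl_prod (pl_prod (pl_coord 0 _) (pl_coord 1 _)) (pl_coord 2 _)
  li p _ _ := rfl
  ri x _ := by ext i; fin_cases i <;> rfl
  mf p _ h := h
  mg x h := ⟨trivial, h⟩
  bd p _ _ := by simp

theorem fold_bd : Fold {w | 0 ≤ w.2} {w | w.2 = 0}
    (fun p => ![p.1.1, p.2 - p.1.2, min p.2 p.1.2])
    (fun x => ((x 0, max (-x 1) 0 + x 2), max (x 1) 0 + x 2)) where
  pl := pl_vec3 (pl_fst (pl_fst (plOn_id _)))
    (pl_sub (pl_snd (plOn_id _)) (pl_snd (pl_fst (plOn_id _))))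
    (pl_min (pl_snd (plOn_id _)) (pl_snd (pl_fst (plOn_id _))))
  pl' := pl_prod (pl_prod (pl_coord 0 _)
    (pl_add (pl_max (pl_neg (pl_coord 1 _)) (plOn_const _ _)) (pl_coord 2 _)))
    (pl_add (pl_max (pl_coord 1 _) (plOn_const _ _)) (pl_coord 2 _))
  li p _ _ := by
    obtain ⟨⟨a, b⟩, c⟩ := p
    show ((a, max (-(c - b)) 0 + min c b), max (c - b) 0 + min c b) = ((a, b), c)
    rcases le_total c b with h | h
    · rw [min_eq_left h, max_eq_left (by linarith), max_eq_right (by linarith)]; simp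
    · rw [min_eq_right h, max_eq_right (by linarith), max_eq_left (by linarith)]; simp
  ri x _ := by
    ext i
    fin_cases i
    · rfl
    · show max (x 1) 0 + x 2 - (max (-x 1) 0 + x 2) = x 1
      rcases le_total (x 1) 0 with h | h
      · rw [max_eq_right h, max_eq_left (by linarith)]; ring
      · rw [max_eq_left h, max_eq_right (by linarith)]; ring
    · show min (max (x 1) 0 + x 2) (max (-x 1) 0 + x 2) = x 2
      rcases le_total (x 1) 0 with h | h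
      · rw [max_eq_right h, max_eq_left (by linarith), min_eq_left (by linarith)]; ring
      · rw [max_eq_left h, max_eq_right (by linarith), min_eq_right (by linarith)]; ring
  mf p h h' := le_min h' h
  mg x h := ⟨(add_nonneg (le_max_right _ _) h : 0 ≤ max (-x 1) 0 + x 2),
    add_nonneg (le_max_right _ _) h⟩
  bd p h h' := by
    show min p.2 p.1.2 = 0 ↔ p.2 = 0 ∨ p.1.2 = 0
    have h1 : 0 ≤ p.1.2 := h
    rcases le_total p.2 p.1.2 with h2 | h2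
    · rw [min_eq_left h2]; exact ⟨Or.inl, fun h3 => h3.elim id fun h4 => by linarith⟩
    · rw [min_eq_right h2]; exact ⟨Or.inr, fun h3 => h3.elim (fun h4 => by linarith) id⟩

theorem ph_lin : PH (fun z => (z.re, z.im)) (fun w => ⟨w.1, w.2⟩) where
  pl := pl_clm (Complex.equivRealProdCLM : ℂ →L[ℝ] ℝ × ℝ) univ
  pl' := (pl_clm (Complex.equivRealProdCLM.symm : ℝ × ℝ →L[ℝ] ℂ) univ).congr fun w _ => by
    apply Complex.ext <;> simp
  li _ := rfl
  ri _ := rfl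
  zero := rfl

namespace Tri

section

variable {E : Type} [NormedAddCommGroup E] [NormedSpace ℝ E] {ι : Type} [Fintype ι] {X : Set E}
  (T : Tri ι X) (A : Finset ι)

/-- total weight of the vertices of `A` -/
def mu (y : E) : ℝ := ∑ u ∈ A, T.be u y

/-- the derived neighbourhood -/
def HA : Set E := {y | y ∈ X ∧ 1 / 2 ≤ T.mu A y}

/-- its boundary -/
def dHA (dM : Set E) : Set E := {y | y ∈ T.HA A ∧ (T.mu A y = 1 / 2 ∨ y ∈ dM)}

theorem mu_pl : PLOn (T.mu A) X := pl_sum A fun u _ => T.pl u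

theorem mu_shear {q : E} (hq : q ∈ X) {u v : ι} (hu' : u ∉ A) (hv' : v ∈ A) {t : ℝ}
    (hu : |t| < T.be u q) (hv : |t| < T.be v q) :
    q + t • (T.pt v - T.pt u) ∈ X ∧ T.mu A (q + t • (T.pt v - T.pt u)) = T.mu A q + t := by
  classical
  obtain ⟨h1, h2⟩ := T.shear hq u v hu hv
  refine ⟨h1, ?_⟩
  simp only [mu, h2]
  rw [Finset.sum_add_distrib, ← Finset.mul_sum, Finset.sum_sub_distrib]
  simp [hu', hv']

end

variable {ι : Type} [Fintype ι] {X : Set V} {T : Tri ι X} {A : Finset ι}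

theorem shear_chart {dM : Set V} {y : V} {δ : ℝ} (hy : y ∈ X) (hm : T.mu A y = 1 / 2) (hδ : 0 < δ)
    (h : T.Sml y δ) {u v : ι} (hu' : u ∉ A) (hv' : v ∈ A) (hu : 0 < T.be u y) (hv : 0 < T.be v y)
    (Λ : V ≃L[ℝ] ℝ × ℂ) (hΛ : Λ (T.pt v - T.pt u) = (1, 0)) {θ : ℂ → ℝ × ℝ} {θ' : ℝ × ℝ → ℂ}
    (hθ : PH θ θ') {H dH : Set (ℝ × ℝ)} {fo : (ℝ × ℝ) × ℝ → V} {fo' : V → (ℝ × ℝ) × ℝ}
    (hf : Fold H dH fo fo') (hH : ∀ q ∈ ball y δ, (q ∈ X ↔ θ (Λ (q - y)).2 ∈ H) ∧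
      (q ∈ dM ↔ θ (Λ (q - y)).2 ∈ dH)) : ∃ k : Ch (T.HA A) (T.dHA A dM), y ∈ k.O := by
  set d := T.pt v - T.pt u with hd
  set η := min (T.be u y) (T.be v y) / 2 with hη
  have η0 : 0 < η := by positivity
  have sh : ∀ q ∈ X, q ∈ ball y δ → ∀ t : ℝ, |t| < η →
      q + t • d ∈ X ∧ T.mu A (q + t • d) = T.mu A q + t := fun q hq hb t ht =>
    T.mu_shear A hq hu' hv'
      (by linarith [h q hq hb u hu, min_le_left (T.be u y) (T.be v y)])
      (by linarith [h q hq hb v hv, min_le_right (T.be u y) (T.be v y)])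
  let hh : V → ℂ := fun q => (Λ (q - y)).2
  let b0 : ℂ → V := fun z => y + Λ.symm (0, z)
  have hb0 : ∀ z (t : ℝ), hh (b0 z + t • d) = z := fun z t => by
    show (Λ (y + Λ.symm (0, z) + t • d - y)).2 = z
    rw [add_assoc, add_sub_cancel_left, map_add, map_smul, hΛ]; simp
  have hb1 : ∀ z, hh (b0 z) = z := fun z => by simpa using hb0 z 0
  have hb2 : ∀ q, b0 (hh q) + (Λ (q - y)).1 • d = q := fun q => by
    show y + Λ.symm (0, (Λ (q - y)).2) + (Λ (q - y)).1 • d = q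
    have : Λ.symm (0, (Λ (q - y)).2) + (Λ (q - y)).1 • d = q - y := by
      apply Λ.injective
      rw [map_add, Λ.apply_symm_apply, map_smul, hΛ]
      ext <;> simp
    rw [add_assoc, this, add_sub_cancel]
  have phh : PLOn hh univ :=
    pl_snd (pl_map (Λ : V →L[ℝ] ℝ × ℂ) (pl_sub (plOn_id _) (plOn_const _ _)))
  have pb0 : PLOn b0 univ := pl_add (plOn_const _ _)
    (pl_map (Λ.symm : ℝ × ℂ →L[ℝ] V) (pl_prod (plOn_const _ _) (plOn_id _)))
  let e : V → V := fun q => fo (θ (hh q), T.mu A q - 1 / 2)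
  let q0 : V → V := fun x => b0 (θ' (fo' x).1)
  let τ : V → ℝ := fun x => (fo' x).2 - (T.mu A (q0 x) - 1 / 2)
  have pq0 : PLOn q0 univ :=
    pb0.comp (hθ.pl'.comp (pl_fst hf.pl') (mapsTo_univ _ _)) (mapsTo_univ _ _)
  have hy0 : hh y = 0 := by simp [hh]
  have yH : θ (hh y) ∈ H := (hH y (mem_ball_self hδ)).1.1 hy
  have ey : fo' (e y) = (θ (hh y), 0) := by
    show fo' (fo (θ (hh y), T.mu A y - 1 / 2)) = _
    rw [hm, sub_self, hf.li _ yH le_rfl]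
  have qy : q0 (e y) = y := by
    show b0 (θ' (fo' (e y)).1) = y
    rw [ey, hθ.li, hy0]
    show y + Λ.symm 0 = y
    simp
  -- the domain radius
  have c1 : ∀ᶠ q in 𝓝 y, q ∈ ball y δ ∧ b0 (hh q) ∈ ball y δ ∧ |(Λ (q - y)).1| < η := by
    have a1 : Continuous fun q => b0 (hh q) :=
      continuousOn_univ.1 (pb0.comp phh (mapsTo_univ _ _)).1
    have a2 : Continuous fun q => |(Λ (q - y)).1| := by fun_prop
    refine Eventually.and (ball_mem_nhds y hδ) (Eventually.and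
      (a1.continuousAt.eventually_mem ?_) (a2.continuousAt.eventually_lt continuousAt_const ?_))
    · have : b0 (hh y) = y := by
        rw [hy0]
        show y + Λ.symm 0 = y
        simp
      rw [this]; exact ball_mem_nhds y hδ
    · simpa using η0
  obtain ⟨δ1, hδ1, c1⟩ := Metric.mem_nhds_iff.1 c1
  -- the range radius
  have c2 : ∀ᶠ x in 𝓝 (e y), q0 x ∈ ball y δ :=
    (continuousOn_univ.1 pq0.1).continuousAt.eventually_mem (by rw [qy]; exact ball_mem_nhds y hδ)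
  obtain ⟨ε1, hε1, c2⟩ := Metric.mem_nhds_iff.1 c2
  have qX : ∀ x ∈ up ∩ ball (e y) ε1, q0 x ∈ X := fun x hx => by
    refine (hH _ (c2 hx.2)).1.2 ?_
    show θ (hh (b0 _)) ∈ H
    rw [hb1, hθ.ri]; exact (hf.mg x hx.1).1
  have pτ : PLOn τ (up ∩ ball (e y) ε1) :=
    pl_sub (pl_snd (hf.pl'.mono (subset_univ _)))
      (pl_sub ((T.mu_pl A).comp (pq0.mono (subset_univ _)) qX) (plOn_const _ _))
  have eyu : e y ∈ up := hf.mf _ yH (by show 0 ≤ T.mu A y - 1 / 2; rw [hm, sub_self])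
  have c3 : ∀ᶠ x in 𝓝[up ∩ ball (e y) ε1] (e y), |τ x| < η := by
    refine (pτ.1 _ ⟨eyu, mem_ball_self hε1⟩).abs.eventually_lt_const ?_
    show |(fo' (e y)).2 - (T.mu A (q0 (e y)) - 1 / 2)| < η
    rw [ey, qy, hm]; simpa using η0
  obtain ⟨ε2, hε2, c3⟩ := Metric.mem_nhdsWithin_iff.1 c3
  have s1 : up ∩ ball (e y) (min ε1 ε2) ⊆ up ∩ ball (e y) ε1 :=
    inter_subset_inter_right _ (ball_subset_ball (min_le_left _ _))
  have gX : ∀ x ∈ up ∩ ball (e y) (min ε1 ε2), q0 x + τ x • d ∈ X ∧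
      T.mu A (q0 x + τ x • d) - 1 / 2 = (fo' x).2 := fun x hx => by
    obtain ⟨a1, a2⟩ := sh _ (qX x (s1 hx)) (c2 (s1 hx).2) (τ x)
      (c3 ⟨ball_subset_ball (min_le_right _ _) hx.2, s1 hx⟩)
    refine ⟨a1, ?_⟩
    rw [a2]; simp only [τ]; ring
  have qH : ∀ q ∈ T.HA A ∩ ball y δ1, θ (hh q) ∈ H ∧ 0 ≤ T.mu A q - 1 / 2 := fun q hq =>
    ⟨(hH q (c1 hq.2).1).1.1 hq.1.1, sub_nonneg.2 hq.1.2⟩
  refine (ch_of_local (δ := δ1) (ε := min ε1 ε2) e (fun x => q0 x + τ x • d)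
    (show y ∈ T.HA A from ⟨hy, hm.ge⟩) hδ1
    (lt_min hε1 hε2) ?_ ?_ (fun q hq => hf.mf _ (qH q hq).1 (qH q hq).2) ?_ ?_ ?_ ?_).imp
    fun k hk => hk.1
  · exact hf.pl.comp (pl_prod ((hθ.pl.comp phh (mapsTo_univ _ _)).mono (subset_univ _))
      (pl_sub ((T.mu_pl A).mono fun q hq => hq.1.1) (plOn_const _ _))) (mapsTo_univ _ _)
  · exact pl_add (pq0.mono (subset_univ _)) (pl_smul_const (pτ.mono s1) d)
  · intro x hx
    exact ⟨(gX x hx).1, by linarith [(gX x hx).2, (hf.mg x hx.1).2]⟩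
  · intro q hq
    have a1 : fo' (e q) = (θ (hh q), T.mu A q - 1 / 2) := hf.li _ (qH q hq).1 (qH q hq).2
    have a2 : q0 (e q) = b0 (hh q) := by
      show b0 (θ' (fo' (e q)).1) = _
      rw [a1, hθ.li]
    have a3 : b0 (hh q) ∈ X := by
      refine (hH _ (c1 hq.2).2.1).1.2 ?_
      show θ (hh (b0 _)) ∈ H
      rw [hb1]; exact (qH q hq).1
    have a4 := (sh _ a3 (c1 hq.2).2.1 _ (c1 hq.2).2.2).2
    rw [hb2] at a4
    have a5 : τ (e q) = (Λ (q - y)).1 := by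
      show (fo' (e q)).2 - (T.mu A (q0 (e q)) - 1 / 2) = _
      rw [a1, a2, a4]; ring
    show q0 (e q) + τ (e q) • d = q
    rw [a2, a5, hb2]
  · intro x hx _
    show fo (θ (hh (b0 _ + τ x • d)), T.mu A (q0 x + τ x • d) - 1 / 2) = x
    rw [hb0, hθ.ri, (gX x hx).2]; exact hf.ri x hx.1
  · intro q hq
    rw [hf.bd _ (qH q hq).1 (qH q hq).2, sub_eq_zero, ← (hH q (c1 hq.2).1).2]
    exact ⟨fun a => a.2, fun a => ⟨hq.1, a⟩⟩

/-- **the derived neighbourhood is a manifold** at the points interior to `X` -/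
theorem half_ch {M dM : Set V} (hM : Mf M dM) (hX : X ⊆ M) (hs : T.Sub dM) {y : V}
    (hy : y ∈ T.HA A) (hn : X ∈ 𝓝[M] y) : ∃ k : Ch (T.HA A) (T.dHA A dM), y ∈ k.O := by
  classical
  obtain ⟨δ1, hδ1, h1⟩ := Metric.mem_nhdsWithin_iff.1 hn
  rcases hy.2.eq_or_lt with hm | hm
  · obtain ⟨v, hv', hv⟩ : ∃ v ∈ A, 0 < T.be v y := by
      by_contra hc
      push Not at hc
      have : T.mu A y ≤ 0 := Finset.sum_nonpos hc
      linarith
    obtain ⟨u, hu', hu⟩ : ∃ u ∈ Aᶜ, 0 < T.be u y := by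
      by_contra hc
      push Not at hc
      have h2 : ∑ u ∈ Aᶜ, T.be u y ≤ 0 := Finset.sum_nonpos hc
      have h3 := Finset.sum_add_sum_compl A fun u => T.be u y
      rw [T.sum y hy.1] at h3
      have h4 : T.mu A y = ∑ u ∈ A, T.be u y := rfl
      linarith
    rw [Finset.mem_compl] at hu'
    have hd : T.pt v - T.pt u ≠ 0 := fun h0 => by
      have h2 := (T.vert hy.1 hv).2 v
      have h3 := (T.vert hy.1 hu).2 v
      rw [sub_eq_zero.1 h0, h3, if_neg (fun e : v = u => hu' (e ▸ hv')), if_pos rfl] at h2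
      exact zero_ne_one h2
    let Λ0 : V ≃L[ℝ] ℝ × ℂ := ContinuousLinearEquiv.ofFinrankEq (by simp)
    obtain ⟨B, hB⟩ := SeparatingDual.exists_continuousLinearEquiv_apply_eq (R := ℝ)
      (x := Λ0 (T.pt v - T.pt u)) (y := ((1, 0) : ℝ × ℂ)) (fun h0 => hd (Λ0.map_eq_zero_iff.1 h0)) (by simp)
    obtain ⟨δ2, hδ2, h2⟩ := T.exists_sml hy.1
    by_cases hdM : y ∈ dM
    · have h3 := h2.mono (min_le_right δ1 δ2)
      obtain ⟨θ, θ', hθ, h4⟩ := trans_bd hM hX hs hy.1 hdM (lt_min hδ1 hδ2) h3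
        (fun q hq => h1 ⟨ball_subset_ball (min_le_left _ _) hq.2, hq.1⟩) hu hv (Λ0.trans B) hB
      exact shear_chart hy.1 hm.symm (lt_min hδ1 hδ2) h3 hu' hv' hu hv (Λ0.trans B) hB hθ fold_bd h4
    · obtain ⟨δ3, hδ3, h3⟩ := Metric.isOpen_iff.1 hM.2.1 y ⟨hX hy.1, hdM⟩
      refine shear_chart hy.1 hm.symm (lt_min hδ2 (lt_min hδ1 hδ3)) (h2.mono (min_le_left _ _))
        hu' hv' hu hv (Λ0.trans B) hB ph_lin fold_int fun q hq => ?_
      have h4 := ball_subset_ball (min_le_right _ _) hq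
      have h5 := h3 (ball_subset_ball (min_le_right _ _) h4)
      exact ⟨iff_of_true (h1 ⟨ball_subset_ball (min_le_left _ _) h4, h5.1⟩) trivial,
        iff_of_false h5.2 id⟩
  · have h2 : ∀ᶠ q in 𝓝[X] y, 1 / 2 < T.mu A q := ((T.mu_pl A).1 y hy.1).eventually_const_lt hm
    obtain ⟨δ2, hδ2, h2⟩ := Metric.mem_nhdsWithin_iff.1 h2
    obtain ⟨k, hk⟩ := mf_ch hM (hX hy.1)
    have e1 : ball y (min δ1 δ2) ∩ M = ball y (min δ1 δ2) ∩ T.HA A := by
      ext q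
      refine ⟨fun a => ⟨a.1, ?_⟩, fun a => ⟨a.1, hX a.2.1⟩⟩
      have a1 := h1 ⟨ball_subset_ball (min_le_left _ _) a.1, a.2⟩
      exact ⟨a1, le_of_lt (h2 ⟨ball_subset_ball (min_le_right _ _) a.1, a1⟩)⟩
    refine (ch_transfer (A := ball y (min δ1 δ2) ∩ M) ⟨_, isOpen_ball, e1⟩ ⟨_, isOpen_ball, rfl⟩
      (PLEquiv.refl _) (fun q hq => ?_) k ⟨mem_ball_self (lt_min hδ1 hδ2), hX hy.1⟩ hk).imp
      fun k hk => hk.1
    have a1 := (e1.subset hq).2
    have a2 : 1 / 2 < T.mu A q := h2 ⟨ball_subset_ball (min_le_right _ _) hq.1, a1.1⟩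
    exact ⟨fun a => a.2.resolve_left a2.ne', fun a => ⟨a1, Or.inr a⟩⟩

end Tri

end Crest.Agent.X212.Tw9
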