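import Crest.Agent.X212.Tw9.Half

/-!
# X212 / T layer, tower (helper9): levels of the tower and their manifolds
-/

set_option autoImplicit false

open Set Metric Topology Filter

namespace Crest.Agent.X212.Tw9

open Crest.Agent.R096.Ce_537
open Crest.Agent.X212.Prd34 (V P up fl Mf)
open Crest.Agent.X212.Lev33 (Coc Prim LCo)
open Crest.Agent.X212.Dsc4
open Crest.Agent.X212.Lad50

variable {ι : Type} [Fintype ι] {X : Set V}

/-- three vertices of one simplex -/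
def Tri.Thr (T : Tri ι X) (u v w : ι) : Prop :=
  ∃ y ∈ X, 0 < T.be u y ∧ 0 < T.be v y ∧ 0 < T.be w y

theorem Tri.comb (T : Tri ι X) {y q : V} (hy : y ∈ X) (hq : q ∈ X)
    (hs : ∀ u, T.be u y = 0 → T.be u q = 0) {a b : ℝ} (ha : 0 ≤ a) (hb : 0 ≤ b) (hab : a + b = 1) :
    a • q + b • y ∈ X ∧ ∀ u, T.be u (a • q + b • y) = a * T.be u q + b * T.be u y := by
  refine T.pt_of hy _ (fun u => add_nonneg (mul_nonneg ha (T.nn q hq u)) (mul_nonneg hb (T.nn y hy u)))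
    ?_ (fun u hu => by rw [hu, hs u hu]; ring) ?_
  · rw [Finset.sum_add_distrib, ← Finset.mul_sum, ← Finset.mul_sum, T.sum y hy, T.sum q hq]
    linarith
  · simp only [add_smul, mul_smul]
    rw [Finset.sum_add_distrib, ← Finset.smul_sum, ← Finset.smul_sum, T.rep y hy, T.rep q hq]

theorem Tri.Thr.bary {T : Tri ι X} {u v w : ι} (h : T.Thr u v w) : ∃ q ∈ X,
    (∀ x, T.be x q ≠ 0 → x = u ∨ x = v ∨ x = w) ∧ 0 < T.be u q ∧ 0 < T.be v q ∧ 0 < T.be w q := by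
  classical
  obtain ⟨y, hy, hu, hv, hw⟩ := h
  let c : ι → ℝ := fun x => (1 / 3) * ((if x = u then 1 else 0) + (if x = v then 1 else 0) +
    (if x = w then 1 else 0))
  obtain ⟨h1, h2⟩ := T.face y hy c (fun x => by simp only [c]; split_ifs <;> norm_num)
    (by simp only [c]; rw [← Finset.mul_sum, Finset.sum_add_distrib, Finset.sum_add_distrib]
        simp; norm_num)
    (fun x hx => by
      have b1 : x ≠ u := fun e => by subst e; linarith
      have b2 : x ≠ v := fun e => by subst e; linarith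
      have b3 : x ≠ w := fun e => by subst e; linarith
      simp [c, b1, b2, b3])
  refine ⟨_, h1, fun x hx => ?_, ?_, ?_, ?_⟩
  · rw [h2] at hx
    by_contra hc
    push Not at hc
    simp [c, hc.1, hc.2.1, hc.2.2] at hx
  all_goals rw [h2]; simp only [c]; split_ifs <;> first | contradiction | norm_num

/-- a level of the tower: a simplicial complex immersed in `X`, given by its vertices and edges -/
structure Lv (T : Tri ι X) (κ : Type) where
  /-- the vertex below -/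
  a : κ → ι
  /-- equal or adjacent -/
  N : κ → κ → Prop
  rf : ∀ v, N v v
  sym : ∀ {v w}, N v w → N w v
  inj : ∀ {v w w'}, N v w → N v w' → a w = a w' → w = w'
  full : ∀ {v w w'}, N v w → N v w' → T.Thr (a v) (a w) (a w') → N w w'
  edge : ∀ {v w}, N v w → T.Thr (a v) (a w) (a w)

namespace Lv

variable {T : Tri ι X} {κ : Type} (L : Lv T κ)

open Classical in
/-- the sheet through the star of `v` -/
noncomputable def s (v : κ) (y : V) : V × (κ → ℝ) :=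
  (y, fun w => if L.N v w then T.be (L.a w) y else 0)

theorem s_fst (v : κ) (y : V) : (L.s v y).1 = y := rfl

variable {L} in
theorem s_of {v w : κ} (h : L.N v w) (y : V) : (L.s v y).2 w = T.be (L.a w) y := if_pos h

variable {L} in
theorem s_pos {v w : κ} {y : V} (h : 0 < (L.s v y).2 w) : L.N v w ∧ 0 < T.be (L.a w) y := by
  by_cases h1 : L.N v w
  · exact ⟨h1, s_of h1 y ▸ h⟩
  · have : (L.s v y).2 w = 0 := if_neg h1
    exact absurd (this ▸ h) (lt_irrefl _)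

variable {L} in
theorem s_eq {v w : κ} {y : V} (h : L.N v w) (hy : y ∈ X) (hv : 0 < T.be (L.a v) y)
    (hw : 0 < T.be (L.a w) y) : L.s v y = L.s w y := by
  refine Prod.ext rfl (funext fun x => ?_)
  rcases (T.nn y hy (L.a x)).eq_or_lt with h0 | h0
  · simp only [s, ← h0, ite_self]
  · have : L.N v x ↔ L.N w x := ⟨fun h1 => L.full h h1 ⟨y, hy, hv, hw, h0⟩,
      fun h1 => L.full (L.sym h) h1 ⟨y, hy, hw, hv, h0⟩⟩
    by_cases h1 : L.N v x
    · rw [s_of h1, s_of (this.1 h1)]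
    · exact (if_neg h1).trans (if_neg fun h2 => h1 (this.2 h2)).symm

theorem s_comb (v : κ) {y q : V} (hy : y ∈ X) (hq : q ∈ X)
    (hs : ∀ u, T.be u y = 0 → T.be u q = 0) {a b : ℝ} (ha : 0 ≤ a) (hb : 0 ≤ b) (hab : a + b = 1) :
    L.s v (a • q + b • y) = a • L.s v q + b • L.s v y := by
  refine Prod.ext rfl (funext fun x => ?_)
  show (L.s v (a • q + b • y)).2 x = a * (L.s v q).2 x + b * (L.s v y).2 x
  simp only [s, (T.comb hy hq hs ha hb hab).2]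
  split_ifs <;> simp

variable [Fintype κ]

theorem s_pl (v : κ) : PLOn (L.s v) X := by
  refine pl_prod (plOn_id _) (pl_pi fun w => ?_)
  by_cases h : L.N v w
  · exact (T.pl (L.a w)).congr fun y _ => if_pos h
  · exact (plOn_const 0 _).congr fun y _ => if_neg h

open Classical in
/-- the vertices below the neighbours of `v` -/
noncomputable def A (v : κ) : Finset ι := (Finset.univ.filter (L.N v)).image L.a

theorem mem_A {v : κ} {u : ι} : u ∈ L.A v ↔ ∃ w, L.N v w ∧ L.a w = u := by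
  simp [A]

/-- total weight -/
def sg (p : V × (κ → ℝ)) : ℝ := ∑ w, p.2 w

theorem sg_pl (K : Set (V × (κ → ℝ))) : PLOn (sg (κ := κ)) K :=
  pl_sum _ fun w _ => pl_apply (pl_snd (plOn_id K)) w

theorem sg_cont : Continuous (sg (κ := κ)) := continuousOn_univ.1 (sg_pl univ).1

theorem sg_s (v : κ) (y : V) : sg (L.s v y) = T.mu (L.A v) y := by
  classical
  unfold sg Tri.mu A
  rw [Finset.sum_image fun w hw w' hw' e =>
    L.inj (Finset.mem_filter.1 hw).2 (Finset.mem_filter.1 hw').2 e, Finset.sum_filter]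
  exact Finset.sum_congr rfl fun w _ => by simp only [s]

theorem mu_one {v : κ} {y : V} (hy : y ∈ X) (h : ∀ u, T.be u y ≠ 0 → u ∈ L.A v) :
    T.mu (L.A v) y = 1 := by
  rw [← T.sum y hy]
  exact Finset.sum_subset (Finset.subset_univ _) fun u _ hu => by_contra fun h1 => hu (h u h1)

/-- the manifold of the level -/
def W : Set (V × (κ → ℝ)) :=
  {p | p.1 ∈ X ∧ 1 / 2 ≤ sg p ∧ ∃ v, 0 < T.be (L.a v) p.1 ∧ p = L.s v p.1}

/-- its boundary -/
def dW (dM : Set V) : Set (V × (κ → ℝ)) := {p | p ∈ L.W ∧ (sg p = 1 / 2 ∨ p.1 ∈ dM)}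

/-- the part of the boundary above `F` -/
def G (F : Set V) : Set (V × (κ → ℝ)) := {p | p ∈ L.W ∧ p.1 ∈ F ∧ 1 / 2 < sg p}

variable {L}

theorem W_eq {p : V × (κ → ℝ)} (hp : p ∈ L.W) {w : κ} (hw : 0 < p.2 w) :
    0 < T.be (L.a w) p.1 ∧ p = L.s w p.1 := by
  obtain ⟨h1, -, v, h2, h3⟩ := hp
  have h4 := s_pos (L := L) (v := v) (y := p.1) (h3 ▸ hw)
  exact ⟨h4.2, h3.trans (s_eq h4.1 h1 h2 h4.2)⟩

theorem W_N {p : V × (κ → ℝ)} (hp : p ∈ L.W) {v w : κ} (hv : 0 < p.2 v) (hw : 0 < p.2 w) :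
    L.N v w := (s_pos (L := L) (y := p.1) ((W_eq hp hv).2 ▸ hw)).1

theorem W_ex {p : V × (κ → ℝ)} (hp : p ∈ L.W) : ∃ v, 0 < p.2 v := by
  obtain ⟨-, -, v, h2, h3⟩ := hp
  exact ⟨v, by rw [h3, s_of (L.rf v)]; exact h2⟩

theorem s_mem {v : κ} {y : V} (hy : y ∈ T.HA (L.A v)) (hv : 0 < T.be (L.a v) y) : L.s v y ∈ L.W :=
  ⟨hy.1, by rw [sg_s]; exact hy.2, v, hv, rfl⟩

theorem W_big {p : V × (κ → ℝ)} (hp : p ∈ L.W) :
    ∃ v, 1 / (2 * (Fintype.card κ : ℝ) + 1) ≤ p.2 v := by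
  by_contra hc
  push Not at hc
  have h1 : sg p ≤ ∑ _w : κ, 1 / (2 * (Fintype.card κ : ℝ) + 1) :=
    Finset.sum_le_sum fun w _ => (hc w).le
  rw [Finset.sum_const, Finset.card_univ, nsmul_eq_mul, mul_one_div] at h1
  have h2 : (Fintype.card κ : ℝ) / (2 * (Fintype.card κ : ℝ) + 1) < 1 / 2 := by
    rw [div_lt_iff₀ (by positivity)]; linarith
  linarith [hp.2.1]

variable (L)

theorem W_cpt : IsCompact L.W := by
  have e : L.W = ⋃ v, L.s v '' ((X ∩ T.mu (L.A v) ⁻¹' Ici (1 / 2)) ∩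
      T.be (L.a v) ⁻¹' Ici (1 / (2 * (Fintype.card κ : ℝ) + 1))) := by
    apply Subset.antisymm
    · intro p hp
      obtain ⟨v, hv⟩ := W_big hp
      obtain ⟨h1, h2⟩ := W_eq hp (lt_of_lt_of_le (by positivity) hv)
      refine mem_iUnion.2 ⟨v, p.1, ⟨⟨hp.1, ?_⟩, ?_⟩, h2.symm⟩
      · show 1 / 2 ≤ T.mu _ _
        rw [← sg_s, ← h2]; exact hp.2.1
      · show _ ≤ T.be _ _
        rw [← s_of (L.rf v), ← h2]; exact hv
    · refine iUnion_subset fun v => ?_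
      rintro _ ⟨y, hy, rfl⟩
      exact s_mem hy.1 (lt_of_lt_of_le (by positivity) hy.2)
  rw [e]
  refine isCompact_iUnion fun v => IsCompact.image_of_continuousOn ?_
    ((L.s_pl v).1.mono fun y hy => hy.1.1)
  have c1 := (T.mu_pl (L.A v)).1.preimage_isClosed_of_isClosed T.cpt.isClosed (isClosed_Ici (a := 1 / 2))
  exact T.cpt.of_isClosed_subset (((T.cont _).mono inter_subset_left).preimage_isClosed_of_isClosed
    c1 isClosed_Ici) fun y hy => hy.1.1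

/-- a map which is PL on each star is PL -/
theorem pl_of {F : Type} [NormedAddCommGroup F] [NormedSpace ℝ F] {g : V × (κ → ℝ) → F}
    (h : ∀ v, PLOn g {p | p ∈ L.W ∧ 0 < p.2 v}) : PLOn g L.W := by
  have h1 := plOn_biUnion (f := g)
    (K := fun v => L.W ∩ {p | 1 / (2 * (Fintype.card κ : ℝ) + 1) ≤ p.2 v}) univ finite_univ
    (fun v _ => (h v).mono fun p hp => ⟨hp.1, lt_of_lt_of_le (by positivity) hp.2⟩)
    fun v _ => L.W_cpt.isClosed.inter (isClosed_le continuous_const (by fun_prop))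
  refine h1.mono fun p hp => ?_
  obtain ⟨v, hv⟩ := W_big hp
  exact mem_biUnion (mem_univ v) ⟨hp, hv⟩

theorem mfE {M dM : Set V} (hM : Mf M dM) (hX : X ⊆ M) (hs : T.Sub dM)
    (hg : ∀ v, T.Good M (L.a v)) : MfE L.W (L.dW dM) := by
  refine ⟨fun p hp => hp.1, fun p hp => ?_⟩
  obtain ⟨v, hv⟩ := W_ex hp
  have m1 : ∀ q ∈ {q : V × (κ → ℝ) | 0 < q.2 v} ∩ L.W,
      q.1 ∈ T.be (L.a v) ⁻¹' Ioi 0 ∩ T.HA (L.A v) := fun q hq =>
    ⟨(W_eq hq.2 hq.1).1, hq.2.1, by rw [← sg_s, ← (W_eq hq.2 hq.1).2]; exact hq.2.2.1⟩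
  obtain ⟨k, hk⟩ := Tri.half_ch hM hX hs (m1 p ⟨hv, hp⟩).2 (hg v _ hp.1 (W_eq hp hv).1)
  obtain ⟨U, hU, hU'⟩ := continuousOn_iff'.1 ((T.cont (L.a v)).mono
    (fun y hy => hy.1 : T.HA (L.A v) ⊆ X)) (Ioi 0) isOpen_Ioi
  refine (ch_transfer (A := {q : V × (κ → ℝ) | 0 < q.2 v} ∩ L.W)
    ⟨_, isOpen_lt continuous_const (by fun_prop), rfl⟩ ⟨U, hU, hU'⟩
    ⟨Prod.fst, L.s v, pl_fst (plOn_id _), (L.s_pl v).mono fun y hy => hy.2.1, m1,
      fun y hy => ⟨?_, s_mem hy.2 hy.1⟩, fun q hq => (W_eq hq.2 hq.1).2.symm, fun y _ => rfl⟩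
    (fun q hq => ?_) k ⟨hv, hp⟩ hk).imp fun k hk => hk.1
  · show 0 < (L.s v y).2 v
    rw [s_of (L.rf v)]; exact hy.1
  · have h1 : sg q = T.mu (L.A v) q.1 := by rw [← sg_s, ← (W_eq hq.2 hq.1).2]
    show q ∈ L.W ∧ _ ↔ q.1 ∈ T.HA (L.A v) ∧ _
    rw [h1]
    exact ⟨fun a => ⟨(m1 q hq).2, a.2⟩, fun a => ⟨hq.2, a.2⟩⟩

theorem ropen {dM F : Set V} (h : ROpen dM F) : ROpen (L.dW dM) (L.G F) := by
  obtain ⟨B, hB, rfl⟩ := h
  refine ⟨Prod.fst ⁻¹' B ∩ {p | 1 / 2 < sg p},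
    (hB.preimage continuous_fst).inter (isOpen_lt continuous_const sg_cont), ?_⟩
  ext p
  exact ⟨fun a => ⟨⟨a.2.1.1, a.2.2⟩, a.1, Or.inr a.2.1.2⟩,
    fun a => ⟨a.2.1, ⟨a.1.1, a.2.2.resolve_left (ne_of_gt a.1.2)⟩, a.1.2⟩⟩

theorem coc {Γ : Type} [Group Γ] {F : Set V} {c : V → V → Γ} (h : Coc F c) :
    Coc (L.G F) fun p q => c p.1 q.1 :=
  h.comp continuousOn_fst fun _ hp => hp.2.1

/-- intersection of three open stars -/
def S (v w w' : κ) : Set (V × (κ → ℝ)) := {p | p ∈ L.W ∧ 0 < p.2 v ∧ 0 < p.2 w ∧ 0 < p.2 w'}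

variable {L}

theorem star {v w w' : κ} (h : L.N v w) (h' : L.N v w') (h3 : T.Thr (L.a v) (L.a w) (L.a w')) :
    ∃ m ∈ L.S v w w', StarConvex ℝ m (L.S v w w') := by
  obtain ⟨q, hq, q0, q1, q2, q3⟩ := h3.bary
  have hm : T.mu (L.A v) q = 1 := L.mu_one hq fun u hu => by
    rcases q0 u hu with rfl | rfl | rfl
    exacts [L.mem_A.2 ⟨v, L.rf v, rfl⟩, L.mem_A.2 ⟨w, h, rfl⟩, L.mem_A.2 ⟨w', h', rfl⟩]
  have mk : ∀ y ∈ X, 1 / 2 ≤ sg (L.s v y) → 0 < T.be (L.a v) y → 0 < T.be (L.a w) y →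
      0 < T.be (L.a w') y → L.s v y ∈ L.S v w w' := fun y hy a0 a1 a2 a3 =>
    ⟨⟨hy, a0, v, a1, rfl⟩, by rwa [s_of (L.rf v)], by rwa [s_of h], by rwa [s_of h']⟩
  refine ⟨L.s v q, mk q hq (by rw [sg_s, hm]; norm_num) q1 q2 q3, fun p hp a b ha hb hab => ?_⟩
  obtain ⟨p1, e⟩ := W_eq hp.1 hp.2.1
  have p2 := (W_eq hp.1 hp.2.2.1).1
  have p3 := (W_eq hp.1 hp.2.2.2).1
  have hs : ∀ u, T.be u p.1 = 0 → T.be u q = 0 := fun u hu => by
    by_contra hc
    rcases q0 u hc with rfl | rfl | rfl <;> linarith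
  obtain ⟨c1, c2⟩ := T.comb hp.1.1 hq hs ha hb hab
  have c3 := L.s_comb v hp.1.1 hq hs ha hb hab
  rw [← e] at c3
  have pos : ∀ x z : ℝ, 0 < x → 0 < z → 0 < a * x + b * z := fun x z hx hz => by
    rcases ha.eq_or_lt with h0 | h0
    · rw [← h0] at hab ⊢
      rw [zero_add] at hab
      rw [hab]; simpa using hz
    · positivity
  rw [← c3]
  refine mk _ c1 ?_ (c2 _ ▸ pos _ _ q1 p1) (c2 _ ▸ pos _ _ q2 p2) (c2 _ ▸ pos _ _ q3 p3)
  have c4 : sg (a • L.s v q + b • p) = a * sg (L.s v q) + b * sg p := by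
    simp only [sg, Finset.mul_sum, ← Finset.sum_add_distrib]; rfl
  rw [c3, c4, sg_s, hm]
  nlinarith [hp.1.2.1]

end Lv

/-- a `ℤ/2` cocycle of the level -/
def Lv.Cy {T : Tri ι X} {κ : Type} (L : Lv T κ) (ω : κ → κ → ZMod 2) : Prop :=
  ∀ v w w', L.N v w → L.N v w' → T.Thr (L.a v) (L.a w) (L.a w') → ω v w + ω w w' = ω v w'

theorem Lv.h1c {T : Tri ι X} {κ : Type} [Fintype κ] (L : Lv T κ)
    (h : ∀ ω, L.Cy ω → ∃ σ : κ → ZMod 2, ∀ v w, L.N v w → σ v + σ w = ω v w) : H1c L.W := by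
  classical
  intro d hd
  have h1 : ∀ v, ∃ b, Prim (L.S v v v) d b := fun v => by
    obtain ⟨m, hm, hs⟩ := Lv.star (L.rf v) (L.rf v) (L.edge (L.rf v))
    exact (hd.mono fun p hp => hp.1).prim_star hm hs
  choose b hb using h1
  have h2 : ∀ v w, ∃ o : ZMod 2, L.N v w → ∀ p ∈ L.S v w w,
      Multiplicative.toAdd (b w p) = o + Multiplicative.toAdd (b v p) := fun v w => by
    by_cases hn : L.N v w
    · obtain ⟨m, hm, hs⟩ := Lv.star hn hn (L.edge hn)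
      refine ⟨Multiplicative.toAdd (b w m * (b v m)⁻¹), fun _ p hp => ?_⟩
      rw [← toAdd_mul]
      exact congrArg _ (((hb v).mono fun p (hp : p ∈ L.S v w w) => ⟨hp.1, hp.2.1, hp.2.1, hp.2.1⟩).uniq
        ((hb w).mono fun p (hp : p ∈ L.S v w w) => ⟨hp.1, hp.2.2.1, hp.2.2.1, hp.2.2.1⟩)
        (hs.isPathConnected hm).isConnected.isPreconnected hm hp)
    · exact ⟨0, fun a => absurd a hn⟩
  choose ω hω using h2
  obtain ⟨σ, hσ⟩ := h ω fun v w w' n1 n2 h3 => by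
    obtain ⟨m, hm, -⟩ := Lv.star n1 n2 h3
    have a1 := hω v w n1 m ⟨hm.1, hm.2.1, hm.2.2.1, hm.2.2.1⟩
    have a2 := hω v w' n2 m ⟨hm.1, hm.2.1, hm.2.2.2, hm.2.2.2⟩
    have a3 := hω w w' (L.full n1 n2 h3) m ⟨hm.1, hm.2.2.1, hm.2.2.2, hm.2.2.2⟩
    linear_combination a2 - a1 - a3
  have h3 : ∀ p, ∃ g : Multiplicative (ZMod 2), p ∈ L.W → ∀ v, 0 < p.2 v →
      g = Multiplicative.ofAdd (σ v) * b v p := fun p => by
    by_cases hp : p ∈ L.W
    · obtain ⟨v, hv⟩ := Lv.W_ex hp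
      refine ⟨Multiplicative.ofAdd (σ v) * b v p, fun _ w hw => ?_⟩
      have a1 := hω v w (Lv.W_N hp hv hw) p ⟨hp, hv, hw, hw⟩
      have a2 := hσ v w (Lv.W_N hp hv hw)
      apply Multiplicative.toAdd.injective
      rw [toAdd_mul, toAdd_mul, toAdd_ofAdd, toAdd_ofAdd, a1, ← a2, ← add_assoc, add_comm (σ v) (σ w),
        ← add_assoc, CharTwo.add_self_eq_zero, zero_add]
    · exact ⟨1, fun a => absurd a hp⟩
  choose g hg using h3
  refine ⟨g, fun p hp => ?_⟩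
  obtain ⟨v, hv⟩ := Lv.W_ex hp
  have h4 : L.S v v v ∈ 𝓝[L.W] p := by
    refine mem_nhdsWithin.2 ⟨{q | 0 < q.2 v}, isOpen_lt continuous_const (by fun_prop), hv, ?_⟩
    exact fun q hq => ⟨hq.2, hq.1, hq.1, hq.1⟩
  have h5 := (hb v p ⟨hp, hv, hv, hv⟩).filter_mono (nhdsWithin_le_of_mem h4)
  filter_upwards [h4, h5] with q a1 a2
  rw [hg q a1.1 v a1.2.1, hg p hp v hv, a2, mul_assoc]

end Crest.Agent.X212.Tw9
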