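import Crest.Agent.X212.Tw9.Cov

/-!
# X212 / T layer, tower (helper9): lifts, termination of the tower, the loop theorem from
`SimpStmt`, `TopStmt`, `Desc`
-/

set_option autoImplicit false
set_option linter.unusedSectionVars false

open Set Metric Topology Filter

namespace Crest.Agent.X212.Tw9

open Crest.Agent.R096.Ce_537
open Crest.Agent.X212.Prd34 (V P up fl Mf)
open Crest.Agent.X212.Lev33 (Coc Prim LCo)
open Crest.Agent.X212.Dsc4
open Crest.Agent.X212.Lad50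

variable {ι : Type} [Fintype ι] {X : Set V} {T : Tri ι X} {f : P → V}

theorem Tri.ev_pos (T : Tri ι X) (hf : ContinuousOn f (cube 2)) (hX : MapsTo f (cube 2) X) {x : P}
    (hx : x ∈ cube 2) {u : ι} (h : 0 < T.be u (f x)) : ∀ᶠ y in 𝓝[cube 2] x, 0 < T.be u (f y) :=
  (((T.cont u).comp hf hX) x hx).eventually_const_lt h

theorem Tri.ex_pos (T : Tri ι X) {y : V} (hy : y ∈ X) : ∃ u, 0 < T.be u y := by
  by_contra hc
  push Not at hc
  have : ∑ u, T.be u y ≤ 0 := Finset.sum_nonpos fun u _ => hc u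
  linarith [T.sum y hy]

namespace Lv

variable {κ : Type}

/-- a lift of the singular disc to the level -/
structure Lift (L : Lv T κ) (f : P → V) (l : P → κ) : Prop where
  pos : ∀ x ∈ cube 2, 0 < T.be (L.a (l x)) (f x)
  loc : ∀ x ∈ cube 2, ∀ᶠ y in 𝓝[cube 2] x, L.N (l x) (l y)
  sur : ∀ x ∈ cube 2, ∀ u, 0 < T.be u (f x) → ∃ w, L.N (l x) w ∧ L.a w = u

/-- visited vertices -/
def Vis (L : Lv T κ) (f : P → V) (l : P → κ) (w : κ) : Prop :=
  ∃ x ∈ cube 2, L.N (l x) w ∧ 0 < T.be (L.a w) (f x)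

theorem zero_mem : (0 : P) ∈ cube 2 := by simp [cube]

theorem Lift.sub {L : Lv T κ} {l : P → κ} (h : L.Lift f l) :
    ∃ l', (L.sub (L.Vis f l)).Lift f l' ∧ (∀ w, (L.sub (L.Vis f l)).Vis f l' w) ∧
      ∀ x ∈ cube 2, (l' x).1 = l x := by
  classical
  let l' : P → {v // L.Vis f l v} := fun x =>
    if hx : x ∈ cube 2 then ⟨l x, x, hx, L.rf _, h.pos x hx⟩
    else ⟨l 0, 0, zero_mem, L.rf _, h.pos 0 zero_mem⟩
  have e : ∀ x ∈ cube 2, (l' x).1 = l x := fun x hx => by simp only [l', dif_pos hx]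
  refine ⟨l', ⟨fun x hx => ?_, fun x hx => ?_, fun x hx u hu => ?_⟩, fun w => ?_, e⟩
  · show 0 < T.be (L.a (l' x).1) (f x)
    rw [e x hx]; exact h.pos x hx
  · filter_upwards [h.loc x hx, self_mem_nhdsWithin] with y h1 h2
    show L.N (l' x).1 (l' y).1
    rwa [e x hx, e y h2]
  · obtain ⟨w, h1, h2⟩ := h.sur x hx u hu
    refine ⟨⟨w, x, hx, h1, h2 ▸ hu⟩, ?_, h2⟩
    show L.N (l' x).1 w
    rwa [e x hx]
  · obtain ⟨x, hx, h1, h2⟩ := w.2
    refine ⟨x, hx, ?_, h2⟩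
    show L.N (l' x).1 w.1
    rwa [e x hx]

theorem Lift.cov [Fintype κ] {L : Lv T κ} {l : P → κ} (h : L.Lift f l) (hf : ContinuousOn f (cube 2))
    (hX : MapsTo f (cube 2) X) {ω : κ → κ → ZMod 2} (hω : L.Cy ω) :
    ∃ b : P → ZMod 2, (Lv.cov hω).Lift f fun x => (l x, b x) := by
  have h1 : Coc (cube 2) fun x y => Multiplicative.ofAdd (ω (l x) (l y)) := fun x hx => by
    filter_upwards [h.loc x hx, self_mem_nhdsWithin, T.ev_pos hf hX hx (h.pos x hx)] with y a1 a2 a3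
    filter_upwards [h.loc y a2, self_mem_nhdsWithin, T.ev_pos hf hX a2 a3,
      T.ev_pos hf hX a2 (h.pos y a2)] with z b1 b2 b3 b4
    rw [← ofAdd_add, hω _ _ _ a1 (L.full (L.sym a1) b1 ⟨_, hX b2, b4, b3, h.pos z b2⟩)
      ⟨_, hX b2, b3, b4, h.pos z b2⟩]
  obtain ⟨b, hb⟩ := h1.prim_convex (convex_closedBall _ _)
  refine ⟨fun x => Multiplicative.toAdd (b x), h.pos, fun x hx => ?_, fun x hx u hu => ?_⟩
  · filter_upwards [h.loc x hx, hb x hx] with y a1 a2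
    refine ⟨a1, ?_⟩
    show Multiplicative.toAdd (b x) + Multiplicative.toAdd (b y) = ω (l x) (l y)
    rw [a2, toAdd_mul, toAdd_ofAdd, ← add_assoc, CharTwo.add_self_eq_zero, zero_add]
  · obtain ⟨w, h2, h3⟩ := h.sur x hx u hu
    refine ⟨(w, Multiplicative.toAdd (b x) + ω (l x) w), ⟨h2, ?_⟩, h3⟩
    show Multiplicative.toAdd (b x) + (Multiplicative.toAdd (b x) + ω (l x) w) = ω (l x) w
    rw [← add_assoc, CharTwo.add_self_eq_zero, zero_add]

/-- the number of vertices of the levels is bounded -/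
theorem bound (T : Tri ι X) (hf : ContinuousOn f (cube 2)) (hX : MapsTo f (cube 2) X) :
    ∃ n : ℕ, ∀ (κ : Type) [Fintype κ] (L : Lv T κ) (l : P → κ), L.Lift f l → (∀ w, L.Vis f l w) →
      Fintype.card κ ≤ n := by
  classical
  have h1 : ∀ x : P, ∃ (u : ι) (r : ℝ), 0 < r ∧
      (x ∈ cube 2 → ∀ y ∈ ball x r ∩ cube 2, 0 < T.be u (f y)) := fun x => by
    by_cases hx : x ∈ cube 2
    · obtain ⟨u, hu⟩ := T.ex_pos (hX hx)
      obtain ⟨r, hr, h⟩ := Metric.mem_nhdsWithin_iff.1 (T.ev_pos hf hX hx hu)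
      exact ⟨u, r, hr, fun _ y hy => h hy⟩
    · obtain ⟨u, -⟩ := T.ex_pos (hX zero_mem)
      exact ⟨u, 1, one_pos, fun a => absurd a hx⟩
  choose u r hr hu using h1
  obtain ⟨I, hI, hc⟩ := (isCompact_closedBall (0 : P) 1).elim_nhds_subcover (fun x => ball x (r x))
    fun x _ => ball_mem_nhds x (hr x)
  refine ⟨Fintype.card (I × ι), fun κ _ L l h hv => ?_⟩
  have h2 : ∀ i : I, ∃ v, L.a v = u i ∧ ∀ y ∈ ball i.1 (r i) ∩ cube 2, L.N (l y) v := fun i => by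
    have hi : i.1 ∈ ball i.1 (r i) ∩ cube 2 := ⟨mem_ball_self (hr _), hI i i.2⟩
    obtain ⟨v, h3, h4⟩ := h.sur i hi.2 _ (hu i hi.2 i hi)
    refine ⟨v, h4, fun y hy => ?_⟩
    refine ((convex_ball _ _).inter (convex_closedBall _ _)).isPreconnected.induction₂'
      (fun x y => L.N (l x) v → L.N (l y) v) (fun x hx => ?_) (fun _ _ _ _ _ _ a b c => b (a c)) hi hy h3
    have m := nhdsWithin_mono x (inter_subset_right : ball i.1 (r i) ∩ cube 2 ⊆ cube 2)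
    filter_upwards [m (h.loc x hx.2), m (T.ev_pos hf hX hx.2 (h.pos x hx.2)), self_mem_nhdsWithin]
      with z a1 a2 a3
    have a4 : 0 < T.be (L.a v) (f z) := h4 ▸ hu i hi.2 z a3
    exact ⟨fun n => L.full a1 n ⟨_, hX a3.2, a2, h.pos z a3.2, a4⟩,
      fun n => L.full (L.sym a1) n ⟨_, hX a3.2, h.pos z a3.2, a2, a4⟩⟩
  choose v hv1 hv2 using h2
  have h3 : ∀ w, ∃ i : I, L.N (v i) w := fun w => by
    obtain ⟨x, hx, a1, a2⟩ := hv w
    obtain ⟨i, hi, a3⟩ := mem_iUnion₂.1 (hc hx)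
    exact ⟨⟨i, hi⟩, L.full (hv2 ⟨i, hi⟩ x ⟨a3, hx⟩) a1
      ⟨_, hX hx, h.pos x hx, hv1 ⟨i, hi⟩ ▸ hu i (hI i hi) x ⟨a3, hx⟩, a2⟩⟩
  choose j hj using h3
  refine Fintype.card_le_of_injective (fun w => (j w, L.a w)) fun w w' e => ?_
  have e1 : j w = j w' := congrArg Prod.fst e
  exact L.inj (hj w) (e1 ▸ hj w') (congrArg Prod.snd e)

variable [Fintype κ]

/-- the lifted boundary curve is essential -/
theorem Lift.not_prim {L : Lv T κ} {l : P → κ} (h : L.Lift f l) (hf : ContinuousOn f (cube 2))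
    (hX : MapsTo f (cube 2) X) {Γ : Type} [Group Γ] {F : Set V} {c : V → V → Γ}
    (hF : MapsTo f (sph 2) F) (hn : ¬ ∃ b, Prim (sph 2) (fun x y => c (f x) (f y)) b) :
    ¬ ∃ b, Prim (L.G F) (fun p q => c p.1 q.1) b := by
  rintro ⟨b, hb⟩
  have sc : sph 2 ⊆ cube 2 := sphere_subset_closedBall
  have hc : ContinuousOn (fun x => L.s (l x) (f x)) (cube 2) := fun x hx => by
    refine (((L.s_pl (l x)).1.comp hf hX) x hx).congr_of_eventuallyEq ?_ rfl
    filter_upwards [h.loc x hx, self_mem_nhdsWithin, T.ev_pos hf hX hx (h.pos x hx)] with y a1 a2 a3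
    exact (s_eq a1 (hX a2) a3 (h.pos y a2)).symm
  refine hn ⟨_, hb.comp (hc.mono sc) fun x hx => ?_⟩
  have h1 : T.mu (L.A (l x)) (f x) = 1 := L.mu_one (hX (sc hx)) fun u hu =>
    L.mem_A.2 (h.sur x (sc hx) u (lt_of_le_of_ne (T.nn _ (hX (sc hx)) u) hu.symm))
  exact ⟨s_mem ⟨hX (sc hx), by rw [h1]; norm_num⟩ (h.pos x (sc hx)), hF hx,
    by rw [sg_s, h1]; norm_num⟩

/-- number of edges -/
noncomputable def ne (L : Lv T κ) : ℕ := Nat.card {e : κ × κ // L.N e.1 e.2}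

theorem ne_le (L : Lv T κ) : L.ne ≤ Fintype.card κ * Fintype.card κ := by
  rw [← Fintype.card_prod, ← Nat.card_eq_fintype_card]
  exact Nat.card_le_card_of_injective _ Subtype.val_injective

/-- the tower moves -/
theorem grow {L : Lv T κ} {ω : κ → κ → ZMod 2} (hω : L.Cy ω)
    (hn : ¬ ∃ σ : κ → ZMod 2, ∀ v w, L.N v w → σ v + σ w = ω v w) (K : κ × ZMod 2 → Prop)
    [Fintype {v // K v}] (hs : ∀ v, ∃ i, K (v, i)) :
    Fintype.card κ < Fintype.card {v // K v} ∨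
      (Fintype.card κ = Fintype.card {v // K v} ∧ ((cov hω).sub K).ne < L.ne) := by
  let p : {v // K v} → κ := fun v => v.1.1
  have ps : Function.Surjective p := fun v => (hs v).elim fun i hi => ⟨⟨(v, i), hi⟩, rfl⟩
  rcases (Fintype.card_le_of_surjective p ps).lt_or_eq with h1 | h1
  · exact Or.inl h1
  refine Or.inr ⟨h1, ?_⟩
  have pb : Function.Bijective p := (Fintype.bijective_iff_surjective_and_card p).2 ⟨ps, h1.symm⟩
  let g : {e : {v // K v} × {v // K v} // ((cov hω).sub K).N e.1 e.2} → {e : κ × κ // L.N e.1 e.2} :=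
    fun e => ⟨(p e.1.1, p e.1.2), e.2.1⟩
  have gi : Function.Injective g := fun e e' a => by
    have a1 : (p e.1.1, p e.1.2) = (p e'.1.1, p e'.1.2) := congrArg Subtype.val a
    have a2 : p e.1.1 = p e'.1.1 := (Prod.mk.inj a1).1
    have a3 : p e.1.2 = p e'.1.2 := (Prod.mk.inj a1).2
    exact Subtype.ext (Prod.ext (pb.1 a2) (pb.1 a3))
  refine lt_of_le_of_ne (Nat.card_le_card_of_injective g gi) fun a => hn ?_
  have gs : Function.Surjective g := ((Nat.bijective_iff_injective_and_card g).2 ⟨gi, a⟩).2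
  choose q hq using ps
  refine ⟨fun v => (q v).1.2, fun v w n => ?_⟩
  obtain ⟨e, he⟩ := gs ⟨(v, w), n⟩
  have a1 := congrArg Subtype.val he
  have a2 : p e.1.1 = v := congrArg Prod.fst a1
  have a3 : p e.1.2 = w := congrArg Prod.snd a1
  have b2 : q v = e.1.1 := pb.1 ((hq v).trans a2.symm)
  have b3 : q w = e.1.2 := pb.1 ((hq w).trans a3.symm)
  show (q v).1.2 + (q w).1.2 = ω v w
  rw [b2, b3, ← a2, ← a3]
  exact e.2.2

end Lv

theorem tower (ht : TopStmt) (hd : Desc) {Γ : Type} [Group Γ] {M dM F : Set V} {c : V → V → Γ}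
    (hM : Mf M dM) (hX : X ⊆ M) (hs : T.Sub dM) (hF : ROpen dM F) (hc : Coc F c)
    (hf : ContinuousOn f (cube 2)) (hfX : MapsTo f (cube 2) X) (hfF : MapsTo f (sph 2) F)
    (hn : ¬ ∃ b, Prim (sph 2) (fun x y => c (f x) (f y)) b)
    (hg : ∀ u, (∃ x ∈ cube 2, 0 < T.be u (f x)) → T.Good M u) (κ : Type) [Fintype κ] (L : Lv T κ)
    (l : P → κ) (h : L.Lift f l) (hv : ∀ w, L.Vis f l w) :
    ∃ D, Ess L.W (L.dW dM) (L.G F) (fun p q => c p.1 q.1) D := by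
  classical
  obtain ⟨n, hb⟩ := Lv.bound T hf hfX
  induction hm : (n - Fintype.card κ) * (n * n + 1) + L.ne using Nat.strong_induction_on
    generalizing κ with
  | _ m ih =>
  have good : ∀ v, T.Good M (L.a v) := fun v => (hv v).elim fun x hx => hg _ ⟨x, hx.1, hx.2.2⟩
  by_cases ho : ∀ ω, L.Cy ω → ∃ σ : κ → ZMod 2, ∀ v w, L.N v w → σ v + σ w = ω v w
  · exact ht _ Γ _ _ _ _ L.W_cpt (L.mfE hM hX hs good) (L.h1c ho) (L.ropen hF) (L.coc hc)
      (h.not_prim hf hfX hfF hn)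
  obtain ⟨ω, ho⟩ := not_forall.1 ho
  obtain ⟨hω, ho⟩ := Classical.not_imp.1 ho
  obtain ⟨b, h1⟩ := h.cov hf hfX hω
  obtain ⟨l', h2, h3, -⟩ := h1.sub
  refine Lv.cov_desc hd hω hM hX hs good hF hc _ (ih _ ?_ _ _ l' h2 h3 rfl)
  have c1 := hb _ _ l' h2 h3
  have c2 := Lv.ne_le ((Lv.cov hω).sub ((Lv.cov hω).Vis f fun x => (l x, b x)))
  have c3 := Nat.mul_le_mul c1 c1
  rcases Lv.grow hω ho ((Lv.cov hω).Vis f fun x => (l x, b x)) (fun v => by
    obtain ⟨x, hx, a1, a2⟩ := hv v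
    refine ⟨b x + ω (l x) v, x, hx, ⟨a1, ?_⟩, a2⟩
    show b x + (b x + ω (l x) v) = ω (l x) v
    rw [← add_assoc, CharTwo.add_self_eq_zero, zero_add]) with h4 | h4
  · rw [← hm]
    have c4 := Nat.mul_le_mul_right (n * n + 1) (show n - Fintype.card
      {v // (Lv.cov hω).Vis f (fun x => (l x, b x)) v} + 1 ≤ n - Fintype.card κ by omega)
    rw [add_mul] at c4
    omega
  · rw [← hm, ← h4.1]
    exact Nat.add_lt_add_left h4.2 _

/-- **the loop theorem from triangulation, top of the tower and descent** -/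
theorem ltc_of (hs : SimpStmt) (ht : TopStmt) (hd : Desc) : LTc := by
  classical
  intro Γ _ M dM F c f hM hF hc hf hfM hfF hn
  obtain ⟨ι, _, X, T, h1, h2, h3, h4⟩ := hs M dM (f '' cube 2) hM
    ((isCompact_closedBall _ _).image_of_continuousOn hf) hfM.image_subset
  have hfX : MapsTo f (cube 2) X := fun x hx => h1 ⟨x, hx, rfl⟩
  let L : Lv T {u // ∃ x ∈ cube 2, 0 < T.be u (f x)} :=
    { a := Subtype.val
      N := fun v w => T.Thr v w w
      rf := fun v => v.2.elim fun x hx => ⟨_, hfX hx.1, hx.2, hx.2, hx.2⟩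
      sym := fun ⟨y, a, b, c, _⟩ => ⟨y, a, c, b, b⟩
      inj := fun _ _ e => Subtype.ext e
      full := fun _ _ ⟨y, a, _, c, d⟩ => ⟨y, a, c, d, d⟩
      edge := id }
  have h5 : ∀ x : P, ∃ v : {u // ∃ x ∈ cube 2, 0 < T.be u (f x)},
      x ∈ cube 2 → 0 < T.be v (f x) := fun x => by
    by_cases hx : x ∈ cube 2
    · obtain ⟨u, hu⟩ := T.ex_pos (hfX hx)
      exact ⟨⟨u, x, hx, hu⟩, fun _ => hu⟩
    · obtain ⟨u, hu⟩ := T.ex_pos (hfX Lv.zero_mem)
      exact ⟨⟨u, 0, Lv.zero_mem, hu⟩, fun a => absurd a hx⟩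
  choose l hl using h5
  have h6 : L.Lift f l := ⟨hl, fun x hx => by
    filter_upwards [T.ev_pos hf hfX hx (hl x hx), self_mem_nhdsWithin] with y a1 a2
    exact ⟨_, hfX a2, a1, hl y a2, hl y a2⟩,
    fun x hx u hu => ⟨⟨u, x, hx, hu⟩, ⟨_, hfX hx, hl x hx, hu, hu⟩, rfl⟩⟩
  obtain ⟨D, hD⟩ := tower ht hd hM h2 h3 hF hc hf hfX hfF hn
    (fun u ⟨x, hx, hu⟩ => h4 u ⟨_, ⟨x, hx, rfl⟩, hu⟩) _ L l h6
    fun w => w.2.elim fun x hx => ⟨x, hx.1, ⟨_, hfX hx.1, hl x hx.1, hx.2, hx.2⟩, hx.2⟩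
  refine ⟨_, ess_map (Φ := Prod.fst) hD (pl_fst (plOn_id _)) (fun p hp => h2 hp.1)
    (fun p hp q hq e => ?_) (fun p hp => (Lv.ess_sg hD hp).2) (fun p hp => hp.2.1)
    fun _ _ _ _ => rfl⟩
  obtain ⟨v, hv⟩ := Lv.W_ex (hD.2.1 hp)
  obtain ⟨w, hw⟩ := Lv.W_ex (hD.2.1 hq)
  have a1 := (Lv.W_eq (hD.2.1 hq) hw).1
  exact Lv.eq_of_N (hD.2.1 hp) (hD.2.1 hq) e hv hw
    ⟨_, (hD.2.1 hp).1, (Lv.W_eq (hD.2.1 hp) hv).1, e ▸ a1, e ▸ a1⟩

end Crest.Agent.X212.Tw9
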